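import Vale.Agent.P208.Construction

/-!
Averaged difference quotients of a Lipschitz map over squares of the layers, and the
analysis of one pattern: the translation vectors of the labels are nearly constant.
-/

noncomputable section

set_option linter.unusedSectionVars false

namespace Vale.Agent.P208

open scoped BigOperators

variable {E : Type*} [NormedAddCommGroup E] [InnerProductSpace ℝ E] [CompleteSpace E]

abbrev gl (F : Hil → E) (τ : Hil) (x y : ℝ) : E := F (emb x y + τ)

/-- integrated horizontal increment over the square with corner `(x, y)` and side `r` -/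
def hInc (F : Hil → E) (τ : Hil) (x y r : ℝ) : E :=
  ∫ t in y..(y + r), (gl F τ (x + r) t - gl F τ x t)

def vInc (F : Hil → E) (τ : Hil) (x y r : ℝ) : E :=
  ∫ t in x..(x + r), (gl F τ t (y + r) - gl F τ t y)

/-- mean horizontal derivative over the square -/
def cX (F : Hil → E) (τ : Hil) (x y r : ℝ) : E := (r ^ 2)⁻¹ • hInc F τ x y r

def cY (F : Hil → E) (τ : Hil) (x y r : ℝ) : E := (r ^ 2)⁻¹ • vInc F τ x y r

section Lip

variable {F : Hil → E} {K : ℝ} (hK : ∀ u v, ‖F u - F v‖ ≤ K * ‖u - v‖)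

include hK

lemma K_nonneg : 0 ≤ K := by
  have := hK (e 0) 0
  simp only [sub_zero, norm_e, mul_one] at this
  exact (norm_nonneg _).trans this

lemma F_continuous : Continuous F :=
  (LipschitzWith.of_dist_le_mul (K := K.toNNReal) (fun u v => by
    rw [dist_eq_norm, dist_eq_norm]
    exact (hK u v).trans (mul_le_mul_of_nonneg_right (Real.le_coe_toNNReal K) (norm_nonneg _))
    )).continuous

lemma gl_cont_right (τ : Hil) (x : ℝ) : Continuous fun t => gl F τ x t := by
  have h := F_continuous hK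
  refine h.comp ?_
  simp only [emb]
  fun_prop

lemma gl_cont_left (τ : Hil) (y : ℝ) : Continuous fun t => gl F τ t y := by
  have h := F_continuous hK
  refine h.comp ?_
  simp only [emb]
  fun_prop

lemma gl_dist (τ : Hil) (x y x' y' : ℝ) :
    ‖gl F τ x y - gl F τ x' y'‖ ≤ K * (|x - x'| + |y - y'|) := by
  refine (hK _ _).trans (mul_le_mul_of_nonneg_left ?_ (K_nonneg hK))
  rw [add_sub_add_right_eq_sub, emb_sub]
  exact norm_emb_le _ _

lemma gl_shift (τ v : Hil) (x y : ℝ) : ‖gl F (τ + v) x y - gl F τ x y‖ ≤ K * ‖v‖ := by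
  refine (hK _ _).trans (le_of_eq ?_)
  congr 2; abel

lemma norm_cX_le (τ : Hil) (x y : ℝ) {r : ℝ} (hr : 0 < r) : ‖cX F τ x y r‖ ≤ K := by
  have h : ‖hInc F τ x y r‖ ≤ K * r * |y + r - y| := by
    refine intervalIntegral.norm_integral_le_of_norm_le_const fun t _ => ?_
    simpa [abs_of_pos hr] using gl_dist hK τ (x + r) t x t
  rw [add_sub_cancel_left, abs_of_pos hr] at h
  rw [cX, norm_smul, norm_inv, Real.norm_eq_abs, abs_of_pos (by positivity : 0 < r ^ 2),
    inv_mul_le_iff₀ (by positivity)]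
  linarith

lemma norm_cY_le (τ : Hil) (x y : ℝ) {r : ℝ} (hr : 0 < r) : ‖cY F τ x y r‖ ≤ K := by
  have h : ‖vInc F τ x y r‖ ≤ K * r * |x + r - x| := by
    refine intervalIntegral.norm_integral_le_of_norm_le_const fun t _ => ?_
    simpa [abs_of_pos hr] using gl_dist hK τ t (y + r) t y
  rw [add_sub_cancel_left, abs_of_pos hr] at h
  rw [cY, norm_smul, norm_inv, Real.norm_eq_abs, abs_of_pos (by positivity : 0 < r ^ 2),
    inv_mul_le_iff₀ (by positivity)]
  linarith

lemma cX_sum (τ : Hil) (x₀ y₀ r : ℝ) (hr : 0 < r) (n : ℕ) (hn : 0 < n) :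
    ∑ a ∈ Finset.range n, ∑ b ∈ Finset.range n, cX F τ (x₀ + a * r) (y₀ + b * r) r =
      ((n : ℝ) ^ 2) • cX F τ x₀ y₀ (n * r) := by
  have hc := gl_cont_right hK τ
  have key : ∀ b : ℕ, ∑ a ∈ Finset.range n, hInc F τ (x₀ + a * r) (y₀ + b * r) r =
      ∫ t in (y₀ + b * r)..(y₀ + (b + 1 : ℕ) * r),
        (gl F τ (x₀ + n * r) t - gl F τ x₀ t) := by
    intro b
    have e1 : y₀ + b * r + r = y₀ + (b + 1 : ℕ) * r := by push_cast; ring
    simp only [hInc]
    rw [← intervalIntegral.integral_finsetSum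
      (f := fun (a : ℕ) t => gl F τ (x₀ + a * r + r) t - gl F τ (x₀ + a * r) t) (fun a _ =>
      Continuous.intervalIntegrable (by exact (hc _).sub (hc _)) _ _), e1]
    refine intervalIntegral.integral_congr fun t _ => ?_
    have := Finset.sum_range_sub (fun a : ℕ => gl F τ (x₀ + a * r) t) n
    simp only [Nat.cast_zero, zero_mul, add_zero] at this
    refine Eq.trans (Finset.sum_congr rfl fun a _ => ?_) this
    push_cast; ring_nf
  rw [Finset.sum_comm]
  simp only [cX]
  simp_rw [← Finset.smul_sum, key]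
  have hadj := intervalIntegral.sum_integral_adjacent_intervals
    (f := fun t => gl F τ (x₀ + n * r) t - gl F τ x₀ t)
    (a := fun b : ℕ => y₀ + b * r) (n := n) (μ := MeasureTheory.volume)
    (fun _ _ => ((hc _).sub (hc _)).intervalIntegrable _ _)
  simp only [Nat.cast_zero, zero_mul, add_zero] at hadj
  rw [hadj, smul_smul, hInc]
  congr 1
  have : (n : ℝ) ≠ 0 := Nat.cast_ne_zero.2 hn.ne'
  field_simp

lemma cY_sum (τ : Hil) (x₀ y₀ r : ℝ) (hr : 0 < r) (n : ℕ) (hn : 0 < n) :
    ∑ a ∈ Finset.range n, ∑ b ∈ Finset.range n, cY F τ (x₀ + a * r) (y₀ + b * r) r =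
      ((n : ℝ) ^ 2) • cY F τ x₀ y₀ (n * r) := by
  have hc := gl_cont_left hK τ
  have key : ∀ a : ℕ, ∑ b ∈ Finset.range n, vInc F τ (x₀ + a * r) (y₀ + b * r) r =
      ∫ t in (x₀ + a * r)..(x₀ + (a + 1 : ℕ) * r),
        (gl F τ t (y₀ + n * r) - gl F τ t y₀) := by
    intro a
    have e1 : x₀ + a * r + r = x₀ + (a + 1 : ℕ) * r := by push_cast; ring
    simp only [vInc]
    rw [← intervalIntegral.integral_finsetSum
      (f := fun (b : ℕ) t => gl F τ t (y₀ + b * r + r) - gl F τ t (y₀ + b * r)) (fun b _ =>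
      Continuous.intervalIntegrable (by exact (hc _).sub (hc _)) _ _), e1]
    refine intervalIntegral.integral_congr fun t _ => ?_
    have := Finset.sum_range_sub (fun b : ℕ => gl F τ t (y₀ + b * r)) n
    simp only [Nat.cast_zero, zero_mul, add_zero] at this
    refine Eq.trans (Finset.sum_congr rfl fun b _ => ?_) this
    push_cast; ring_nf
  simp only [cY]
  simp_rw [← Finset.smul_sum, key]
  have hadj := intervalIntegral.sum_integral_adjacent_intervals
    (f := fun t => gl F τ t (y₀ + n * r) - gl F τ t y₀)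
    (a := fun b : ℕ => x₀ + b * r) (n := n) (μ := MeasureTheory.volume)
    (fun _ _ => ((hc _).sub (hc _)).intervalIntegrable _ _)
  simp only [Nat.cast_zero, zero_mul, add_zero] at hadj
  rw [hadj, smul_smul, vInc]
  congr 1
  have : (n : ℝ) ≠ 0 := Nat.cast_ne_zero.2 hn.ne'
  field_simp

end Lip

/-- difference between a translated layer and the layer -/
def dif (F : Hil → E) (τ v : Hil) (x y : ℝ) : E := gl F (τ + v) x y - gl F τ x y

def bandX (F : Hil → E) (τ v : Hil) (x y r : ℝ) : E := ∫ t in y..(y + r), dif F τ v x t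

def bandY (F : Hil → E) (τ v : Hil) (x y r : ℝ) : E := ∫ t in x..(x + r), dif F τ v t y

section Lip2

variable {F : Hil → E} {K : ℝ} (hK : ∀ u v, ‖F u - F v‖ ≤ K * ‖u - v‖)

include hK

lemma cX_shift (τ v : Hil) (x y r : ℝ) :
    cX F (τ + v) x y r - cX F τ x y r =
      (r ^ 2)⁻¹ • (bandX F τ v (x + r) y r - bandX F τ v x y r) := by
  have hc := gl_cont_right hK
  simp only [cX, hInc, bandX, dif, ← smul_sub]
  congr 1
  rw [← intervalIntegral.integral_sub, ← intervalIntegral.integral_sub]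
  · refine intervalIntegral.integral_congr fun t _ => ?_
    abel
  all_goals exact ((hc _ _).sub (hc _ _)).intervalIntegrable _ _

lemma cY_shift (τ v : Hil) (x y r : ℝ) :
    cY F (τ + v) x y r - cY F τ x y r =
      (r ^ 2)⁻¹ • (bandY F τ v x (y + r) r - bandY F τ v x y r) := by
  have hc := gl_cont_left hK
  simp only [cY, vInc, bandY, dif, ← smul_sub]
  congr 1
  rw [← intervalIntegral.integral_sub, ← intervalIntegral.integral_sub]
  · refine intervalIntegral.integral_congr fun t _ => ?_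
    abel
  all_goals exact ((hc _ _).sub (hc _ _)).intervalIntegrable _ _

lemma norm_bandX (τ v : Hil) (x y : ℝ) {r : ℝ} (hr : 0 < r) :
    ‖bandX F τ v x y r‖ ≤ K * ‖v‖ * r := by
  have h : ‖bandX F τ v x y r‖ ≤ K * ‖v‖ * |y + r - y| :=
    intervalIntegral.norm_integral_le_of_norm_le_const fun t _ => gl_shift hK τ v x t
  simpa [abs_of_pos hr] using h

lemma norm_bandY (τ v : Hil) (x y : ℝ) {r : ℝ} (hr : 0 < r) :
    ‖bandY F τ v x y r‖ ≤ K * ‖v‖ * r := by
  have h : ‖bandY F τ v x y r‖ ≤ K * ‖v‖ * |x + r - x| :=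
    intervalIntegral.norm_integral_le_of_norm_le_const fun t _ => gl_shift hK τ v t y
  simpa [abs_of_pos hr] using h

lemma bandX_near (τ v : Hil) (x y : ℝ) {r : ℝ} (hr : 0 < r) :
    ‖bandX F τ v x y r - r • dif F τ v x y‖ ≤ 2 * K * r * r := by
  have hc := gl_cont_right hK
  have e1 : r • dif F τ v x y = ∫ _ in y..(y + r), dif F τ v x y := by
    rw [intervalIntegral.integral_const, add_sub_cancel_left]
  rw [e1, bandX, ← intervalIntegral.integral_sub]
  · have h : ‖∫ t in y..(y + r), (dif F τ v x t - dif F τ v x y)‖ ≤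
        2 * K * r * |y + r - y| := by
      refine intervalIntegral.norm_integral_le_of_norm_le_const fun t ht => ?_
      rw [Set.uIoc_of_le (by linarith)] at ht
      have h1 := gl_dist hK (τ + v) x t x y
      have h2 := gl_dist hK τ x t x y
      simp only [sub_self, abs_zero, zero_add] at h1 h2
      have h3 : |t - y| ≤ r := abs_le.2 ⟨by linarith [ht.1], by linarith [ht.2]⟩
      have h4 := K_nonneg hK
      calc ‖dif F τ v x t - dif F τ v x y‖
          = ‖(gl F (τ + v) x t - gl F (τ + v) x y) - (gl F τ x t - gl F τ x y)‖ := by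
            simp only [dif]; congr 1; abel
        _ ≤ _ := (norm_sub_le _ _).trans (by nlinarith)
    simpa [abs_of_pos hr] using h
  · exact ((hc _ _).sub (hc _ _)).intervalIntegrable _ _
  · exact intervalIntegrable_const

lemma bandY_near (τ v : Hil) (x y : ℝ) {r : ℝ} (hr : 0 < r) :
    ‖bandY F τ v x y r - r • dif F τ v x y‖ ≤ 2 * K * r * r := by
  have hc := gl_cont_left hK
  have e1 : r • dif F τ v x y = ∫ _ in x..(x + r), dif F τ v x y := by
    rw [intervalIntegral.integral_const, add_sub_cancel_left]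
  rw [e1, bandY, ← intervalIntegral.integral_sub]
  · have h : ‖∫ t in x..(x + r), (dif F τ v t y - dif F τ v x y)‖ ≤
        2 * K * r * |x + r - x| := by
      refine intervalIntegral.norm_integral_le_of_norm_le_const fun t ht => ?_
      rw [Set.uIoc_of_le (by linarith)] at ht
      have h1 := gl_dist hK (τ + v) t y x y
      have h2 := gl_dist hK τ t y x y
      simp only [sub_self, abs_zero, add_zero] at h1 h2
      have h3 : |t - x| ≤ r := abs_le.2 ⟨by linarith [ht.1], by linarith [ht.2]⟩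
      have h4 := K_nonneg hK
      calc ‖dif F τ v t y - dif F τ v x y‖
          = ‖(gl F (τ + v) t y - gl F (τ + v) x y) - (gl F τ t y - gl F τ x y)‖ := by
            simp only [dif]; congr 1; abel
        _ ≤ _ := (norm_sub_le _ _).trans (by nlinarith)
    simpa [abs_of_pos hr] using h
  · exact ((hc _ _).sub (hc _ _)).intervalIntegrable _ _
  · exact intervalIntegrable_const

end Lip2

/-! ### elementary inequalities -/

lemma variance_le {ι : Type*} (s : Finset ι) (u : ι → E) (A : E) {C K : ℝ}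
    (hC : ‖∑ c ∈ s, u c - (s.card : ℝ) • A‖ ≤ C) (hA : ‖A‖ ≤ K) :
    ∑ c ∈ s, ‖u c - A‖ ^ 2 ≤
      ∑ c ∈ s, ‖u c‖ ^ 2 - s.card * ‖A‖ ^ 2 + 2 * C * K := by
  have e1 : ∑ c ∈ s, ‖u c - A‖ ^ 2 =
      ∑ c ∈ s, ‖u c‖ ^ 2 - s.card * ‖A‖ ^ 2 -
        2 * inner ℝ (∑ c ∈ s, u c - (s.card : ℝ) • A) A := by
    simp only [norm_sub_sq_real, Finset.sum_add_distrib, Finset.sum_sub_distrib, inner_sub_left,
      sum_inner, real_inner_smul_left, real_inner_self_eq_norm_sq, Finset.sum_const,
      nsmul_eq_mul, ← Finset.mul_sum]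
    ring
  have h2 := abs_le.1 (abs_real_inner_le_norm (∑ c ∈ s, u c - (s.card : ℝ) • A) A)
  have h3 : ‖∑ c ∈ s, u c - (s.card : ℝ) • A‖ * ‖A‖ ≤ C * K :=
    mul_le_mul hC hA (norm_nonneg _) ((norm_nonneg _).trans hC)
  linarith [h2.1]

lemma sum_range_mul' (A B : ℕ) {M : Type*} [AddCommMonoid M] (f : ℕ → M) :
    ∑ x ∈ Finset.range (A * B), f x =
      ∑ p ∈ Finset.range A, ∑ q ∈ Finset.range B, f (p * B + q) := by
  induction A with
  | zero => simp
  | succ A ih => rw [Nat.succ_mul, Finset.sum_range_add, ih, Finset.sum_range_succ]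

lemma chain_le {M : Type*} [NormedAddCommGroup M] (f : ℕ → M) (g : ℕ → ℝ) (N : ℕ)
    (h : ∀ a, a < N → ‖f (a + 1) - f a‖ ≤ g a) (h0 : ∀ a, a < N → 0 ≤ g a)
    {i j : ℕ} (hi : i ≤ N) (hj : j ≤ N) :
    ‖f i - f j‖ ≤ 2 * ∑ a ∈ Finset.range N, g a := by
  have H : ∀ i ≤ N, ‖f i - f 0‖ ≤ ∑ a ∈ Finset.range N, g a := by
    intro i hi
    rw [← Finset.sum_range_sub f i]
    refine (norm_sum_le _ _).trans ?_
    refine le_trans (Finset.sum_le_sum fun a ha => h a ?_) ?_
    · rw [Finset.mem_range] at ha; omega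
    · refine Finset.sum_le_sum_of_subset_of_nonneg (Finset.range_subset_range.2 hi)
        fun a ha _ => h0 a (Finset.mem_range.1 ha)
  calc ‖f i - f j‖ = ‖(f i - f 0) - (f j - f 0)‖ := by rw [sub_sub_sub_cancel_right]
    _ ≤ ‖f i - f 0‖ + ‖f j - f 0‖ := norm_sub_le _ _
    _ ≤ _ := by linarith [H i hi, H j hj]

lemma sum_le_sqrt {ι : Type*} (s : Finset ι) (T : ι → ℝ) {ε : ℝ}
    (h : ∑ c ∈ s, T c ^ 2 ≤ s.card * ε) : ∑ c ∈ s, T c ≤ s.card * Real.sqrt ε := by
  have h1 : (∑ c ∈ s, T c) ^ 2 ≤ (s.card : ℝ) ^ 2 * ε := by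
    refine sq_sum_le_card_mul_sum_sq.trans ?_
    have h' := mul_le_mul_of_nonneg_left h (Nat.cast_nonneg (α := ℝ) s.card)
    linarith
  have h2 := Real.abs_le_sqrt h1
  rw [Real.sqrt_mul (sq_nonneg _), Real.sqrt_sq (Nat.cast_nonneg _)] at h2
  exact (le_abs_self _).trans h2

end Vale.Agent.P208
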