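import Mathlib

/-!
Construction of a doubling subset of the Hilbert space of square summable sequences.
A square is cut in cells; cells are also copied with a translation along fresh coordinate
vectors, following a periodic crossing pattern of rows and columns of labels.
-/

noncomputable section

namespace Vale.Agent.P208

open Metric

abbrev Hil : Type := lp (fun _ : ℕ => ℝ) 2

def pm (s : ℕ) : ℕ := (Nat.unpair (Nat.unpair s).1).1 + 1
def pQ (s : ℕ) : ℕ := (Nat.unpair (Nat.unpair (Nat.unpair s).1).2).1 + 1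
def pW (s : ℕ) : ℕ := (Nat.unpair (Nat.unpair (Nat.unpair s).1).2).2 + 1
def pN (s : ℕ) : ℕ := s + 16
def pn (s : ℕ) : ℕ := pm s * pQ s * pW s * pN s

lemma exists_level (m Q W s₀ : ℕ) :
    ∃ s, s₀ ≤ s ∧ pm s = m + 1 ∧ pQ s = Q + 1 ∧ pW s = W + 1 := by
  refine ⟨Nat.pair (Nat.pair m (Nat.pair Q W)) s₀, Nat.right_le_pair _ _, ?_, ?_, ?_⟩ <;>
    simp [pm, pQ, pW]

lemma pm_pos (s : ℕ) : 0 < pm s := Nat.succ_pos _
lemma pQ_pos (s : ℕ) : 0 < pQ s := Nat.succ_pos _
lemma pW_pos (s : ℕ) : 0 < pW s := Nat.succ_pos _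
lemma pN_ge (s : ℕ) : 16 ≤ pN s := Nat.le_add_left _ _
lemma pn_pos (s : ℕ) : 0 < pn s := by
  have := pm_pos s; have := pQ_pos s; have := pW_pos s; have := pN_ge s
  unfold pn; positivity

/-- number of cells of level `s` along one side of the unit square -/
def gridM : ℕ → ℕ
  | 0 => 1
  | s + 1 => gridM s * pn s

lemma gridM_pos : ∀ s, 0 < gridM s
  | 0 => Nat.one_pos
  | s + 1 => Nat.mul_pos (gridM_pos s) (pn_pos s)

/-- side length at level `s` -/
def side (s : ℕ) : ℝ := 1 / gridM s

/-- offset at level `s` -/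
def rho (s : ℕ) : ℝ := pQ s * side (s + 1)

lemma side_pos (s : ℕ) : 0 < side s := by
  have := gridM_pos s; unfold side; positivity

lemma side_eq (s : ℕ) : side s = pn s * side (s + 1) := by
  have h1 : (gridM s : ℝ) ≠ 0 := Nat.cast_ne_zero.2 (gridM_pos s).ne'
  have h2 : (pn s : ℝ) ≠ 0 := Nat.cast_ne_zero.2 (pn_pos s).ne'
  simp only [side, gridM, Nat.cast_mul]
  field_simp

lemma rho_pos (s : ℕ) : 0 < rho s := by
  have := pQ_pos s; have := side_pos (s + 1); unfold rho; positivity

lemma side_succ_le_rho (s : ℕ) : side (s + 1) ≤ rho s := by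
  have h : (1 : ℝ) ≤ pQ s := by exact_mod_cast pQ_pos s
  have := side_pos (s + 1); unfold rho; nlinarith

lemma side_eq_rho (s : ℕ) : side s = (pm s * pW s * pN s : ℕ) * rho s := by
  rw [side_eq]; simp only [rho, pn, Nat.cast_mul]; ring

lemma rho_le_side (s : ℕ) : 16 * rho s ≤ side s := by
  rw [side_eq_rho]
  have h0 : 16 ≤ pm s * pW s * pN s :=
    le_trans (pN_ge s) (Nat.le_mul_of_pos_left _ (Nat.mul_pos (pm_pos s) (pW_pos s)))
  have h : (16 : ℝ) ≤ (pm s * pW s * pN s : ℕ) := by exact_mod_cast h0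
  exact mul_le_mul_of_nonneg_right h (rho_pos s).le

lemma rho_succ_le (s : ℕ) : 16 * rho (s + 1) ≤ rho s :=
  (rho_le_side (s + 1)).trans (side_succ_le_rho s)

lemma rho_le_pow (s : ℕ) : rho s ≤ rho 0 * (1 / 16) ^ s := by
  induction s with
  | zero => simp
  | succ k ih =>
    have := rho_succ_le k
    rw [pow_succ]; nlinarith

lemma exists_rho_le {R : ℝ} (hR : 0 < R) : ∃ t, rho t ≤ R := by
  obtain ⟨t, ht⟩ := exists_pow_lt_of_lt_one (div_pos hR (rho_pos 0))
    (by norm_num : (1 / 16 : ℝ) < 1)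
  refine ⟨t, (rho_le_pow t).trans ?_⟩
  rw [lt_div_iff₀ (rho_pos 0)] at ht
  linarith

/-! ### coordinate vectors -/

def e (k : ℕ) : Hil := lp.single 2 k (1 : ℝ)

lemma e_apply (k j : ℕ) : e k j = if j = k then 1 else 0 := by
  simp [e, lp.single_apply, Pi.single_apply]

lemma norm_e (k : ℕ) : ‖e k‖ = 1 := by
  simp [e, lp.norm_single (p := 2) (by norm_num : (0 : ENNReal) < 2)]

lemma coord_le (z : Hil) (k : ℕ) : |z k| ≤ ‖z‖ := by
  simpa [Real.norm_eq_abs] using lp.norm_apply_le_norm (by norm_num : (2 : ENNReal) ≠ 0) z k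

def emb (x y : ℝ) : Hil := x • e 0 + y • e 1

@[simp] lemma emb_apply (x y : ℝ) (k : ℕ) :
    emb x y k = (if k = 0 then x else 0) + (if k = 1 then y else 0) := by
  show x * e 0 k + y * e 1 k = _
  simp [e_apply]

lemma norm_emb_le (x y : ℝ) : ‖emb x y‖ ≤ |x| + |y| := by
  refine (norm_add_le _ _).trans ?_
  simp [norm_smul, norm_e, Real.norm_eq_abs]

lemma emb_sub (x y x' y' : ℝ) : emb x y - emb x' y' = emb (x - x') (y - y') := by
  simp [emb, sub_smul]; abel

/-- coordinate used by the translation of label `i` inside the node `(l, I, J)` -/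
def key (l : List (Option ℕ)) (I J i : ℕ) : ℕ := Encodable.encode (l, I, J, i) + 2

lemma key_inj {l l' : List (Option ℕ)} {I J i I' J' i' : ℕ}
    (h : key l I J i = key l' I' J' i') : l = l' ∧ I = I' ∧ J = J' ∧ i = i' := by
  have h' : Encodable.encode (l, I, J, i) = Encodable.encode (l', I', J', i') := by
    unfold key at h; omega
  simpa [Prod.ext_iff] using Encodable.encode_injective h'

def off (l : List (Option ℕ)) (I J : ℕ) : Option ℕ → Hil
  | none => 0
  | some i => rho l.length • e (key l I J i)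

/-- translation of the node with choice list `l` (most recent first) and cell `(I, J)` -/
def tau : List (Option ℕ) → ℕ → ℕ → Hil
  | [], _, _ => 0
  | o :: l, I, J =>
      tau l (I / pn l.length) (J / pn l.length) +
        off l (I / pn l.length) (J / pn l.length) o

def OkChoice (s : ℕ) (o : Option ℕ) (I J : ℕ) : Prop :=
  o = none ∨ o = some (J / pQ s % pm s) ∨ o = some (I / (pQ s * pW s) % pm s)

/-- admissible nodes -/
def Valid : List (Option ℕ) → ℕ → ℕ → Prop
  | [], I, J => I = 0 ∧ J = 0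
  | o :: l, I, J =>
      Valid l (I / pn l.length) (J / pn l.length) ∧ OkChoice l.length o I J

def InIv (s I : ℕ) (x : ℝ) : Prop := (I : ℝ) * side s ≤ x ∧ x ≤ ((I : ℝ) + 1) * side s

/-- the doubling set -/
def setX : Set Hil :=
  {z | ∃ l I J x y, Valid l I J ∧ InIv l.length I x ∧ InIv l.length J y ∧
    z = emb x y + tau l I J}

lemma norm_off_le (l : List (Option ℕ)) (I J : ℕ) (o : Option ℕ) :
    ‖off l I J o‖ ≤ rho l.length := by
  cases o <;> simp [off, norm_smul, norm_e, (rho_pos _).le, Real.norm_eq_abs,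
    abs_of_pos (rho_pos _)]

lemma off_apply (l : List (Option ℕ)) (I J : ℕ) (o : Option ℕ) (k : ℕ) :
    off l I J o k = match o with
      | none => 0
      | some i => if k = key l I J i then rho l.length else 0 := by
  cases o <;> simp [off, e_apply]

lemma tau_apply_low : ∀ (l : List (Option ℕ)) (I J k : ℕ), k < 2 → tau l I J k = 0
  | [], _, _, _, _ => by simp [tau]
  | o :: l, I, J, k, hk => by
    simp only [tau, lp.coeFn_add, Pi.add_apply, tau_apply_low l _ _ k hk, off_apply, zero_add]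
    cases o
    · rfl
    · simp only
      rw [if_neg]; unfold key; omega

lemma tau_apply_high : ∀ (l : List (Option ℕ)) (I J : ℕ) (l' : List (Option ℕ)) (I' J' i : ℕ),
    l.length ≤ l'.length → tau l I J (key l' I' J' i) = 0
  | [], _, _, _, _, _, _, _ => by simp [tau]
  | o :: l, I, J, l', I', J', i, h => by
    have hl : l.length < l'.length := by simp at h; omega
    simp only [tau, lp.coeFn_add, Pi.add_apply,
      tau_apply_high l _ _ l' I' J' i hl.le, off_apply, zero_add]
    cases o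
    · rfl
    · simp only
      rw [if_neg]
      intro hk
      have := (key_inj hk).1
      subst this
      omega

lemma tau_apply_key : ∀ (l : List (Option ℕ)) (I J : ℕ) (l' : List (Option ℕ)) (I' J' i : ℕ),
    tau l I J (key l' I' J' i) = 0 ∨ tau l I J (key l' I' J' i) = rho l'.length
  | [], _, _, _, _, _, _ => by simp [tau]
  | o :: l, I, J, l', I', J', i => by
    by_cases hl : l.length ≤ l'.length
    · simp only [tau, lp.coeFn_add, Pi.add_apply, tau_apply_high l _ _ l' I' J' i hl, off_apply,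
        zero_add]
      cases o
      · exact Or.inl rfl
      · simp only
        split_ifs with h
        · right; rw [(key_inj h).1]
        · left; rfl
    · have h0 : off l (I / pn l.length) (J / pn l.length) o (key l' I' J' i) = 0 := by
        rw [off_apply]
        cases o
        · rfl
        · simp only
          rw [if_neg]
          intro hk
          exact hl (by rw [(key_inj hk).1])
      simp only [tau, lp.coeFn_add, Pi.add_apply, h0, add_zero]
      exact tau_apply_key l _ _ l' I' J' i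

/-- equal low coordinates force equal choice lists and translations -/
lemma tau_eq_of_coords : ∀ (l l' : List (Option ℕ)) (I J I' J' : ℕ), l.length = l'.length →
    (∀ (l₀ : List (Option ℕ)) (a b i : ℕ), l₀.length < l.length →
      tau l I J (key l₀ a b i) = tau l' I' J' (key l₀ a b i)) →
    l = l' ∧ tau l I J = tau l' I' J'
  | [], [], _, _, _, _, _, _ => by simp [tau]
  | [], _ :: _, _, _, _, _, h, _ => by simp at h
  | _ :: _, [], _, _, _, _, h, _ => by simp at h
  | o :: l, o' :: l', I, J, I', J', hlen, h => by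
    have hl : l.length = l'.length := by simpa using hlen
    have hr := rho_pos l.length
    have top : ∀ (l₁ : List (Option ℕ)) (a b i : ℕ), l₁.length = l.length →
        off l (I / pn l.length) (J / pn l.length) o (key l₁ a b i) =
          off l' (I' / pn l'.length) (J' / pn l'.length) o' (key l₁ a b i) := by
      intro l₁ a b i h1
      have := h l₁ a b i (by simp [h1])
      simpa [tau, tau_apply_high l _ _ l₁ a b i (by omega),
        tau_apply_high l' _ _ l₁ a b i (by omega)] using this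
    rcases o with _ | i <;> rcases o' with _ | i'
    · obtain ⟨e1, e2⟩ := tau_eq_of_coords l l' _ _ _ _ hl (fun l₀ a b i h0 => by
        simpa [tau, off] using h l₀ a b i (by simp; omega))
      exact ⟨by rw [e1], by simp [tau, off, e2]⟩
    · have := top l' (I' / pn l'.length) (J' / pn l'.length) i' hl.symm
      simp [off_apply] at this
      have := rho_pos l'.length; linarith
    · have := top l (I / pn l.length) (J / pn l.length) i rfl
      simp [off_apply] at this
      linarith
    · have h1 := top l (I / pn l.length) (J / pn l.length) i rfl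
      simp only [off_apply] at h1
      by_cases hk : key l (I / pn l.length) (J / pn l.length) i =
          key l' (I' / pn l'.length) (J' / pn l'.length) i'
      · obtain ⟨e1, e2, e3, e4⟩ := key_inj hk
        subst e1; subst e4
        refine ⟨rfl, ?_⟩
        simp only [tau]
        rw [e2, e3]
      · simp [hk] at h1
        linarith

lemma InIv.child {s I : ℕ} {x : ℝ} (h : InIv s I x) :
    ∃ I', I' / pn s = I ∧ InIv (s + 1) I' x := by
  have hs := side_pos (s + 1)
  have hn := pn_pos s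
  obtain ⟨h1, h2⟩ := h
  rw [side_eq s] at h1 h2
  by_cases hx : x < ((I : ℝ) + 1) * (pn s * side (s + 1))
  · have hu : (I : ℝ) * pn s ≤ x / side (s + 1) := by
      rw [le_div_iff₀ hs]; linarith
    have hu0 : 0 ≤ x / side (s + 1) := le_trans (by positivity) hu
    refine ⟨⌊x / side (s + 1)⌋₊, ?_, ?_, ?_⟩
    · apply Nat.div_eq_of_lt_le
      · exact Nat.le_floor (by push_cast; linarith)
      · rw [Nat.floor_lt hu0]; push_cast
        rw [div_lt_iff₀ hs]; linarith
    · exact (le_div_iff₀ hs).1 (Nat.floor_le hu0)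
    · exact ((div_lt_iff₀ hs).1 (Nat.lt_floor_add_one _)).le
  · have hx' : x = ((I : ℝ) + 1) * (pn s * side (s + 1)) := le_antisymm h2 (not_lt.1 hx)
    refine ⟨I * pn s + (pn s - 1), ?_, ?_, ?_⟩
    · apply Nat.div_eq_of_lt_le
      · exact Nat.le_add_right _ _
      · rw [Nat.add_mul, one_mul]; omega
    all_goals
      push_cast [Nat.cast_sub hn]
      subst hx'
      nlinarith

lemma InIv.parent {s I : ℕ} {x : ℝ} (h : InIv (s + 1) I x) : InIv s (I / pn s) x := by
  have hs := side_pos (s + 1)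
  have e1 : ((I / pn s : ℕ) : ℝ) * pn s ≤ I := by exact_mod_cast Nat.div_mul_le_self I (pn s)
  have e2 : (I : ℝ) + 1 ≤ ((I / pn s : ℕ) + 1 : ℝ) * pn s := by
    have := Nat.lt_div_mul_add (a := I) (pn_pos s)
    have h2 : I + 1 ≤ (I / pn s + 1) * pn s := by rw [Nat.add_mul, one_mul]; omega
    exact_mod_cast h2
  obtain ⟨h1, h2⟩ := h
  unfold InIv
  rw [side_eq s]
  constructor
  · calc _ = ((I / pn s : ℕ) : ℝ) * pn s * side (s + 1) := by ring
      _ ≤ I * side (s + 1) := mul_le_mul_of_nonneg_right e1 hs.le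
      _ ≤ x := h1
  · calc x ≤ ((I : ℝ) + 1) * side (s + 1) := h2
      _ ≤ ((I / pn s : ℕ) + 1 : ℝ) * pn s * side (s + 1) := mul_le_mul_of_nonneg_right e2 hs.le
      _ = _ := by ring

/-- every point of the set has, at every level, a node that approximates it -/
lemma approx {z : Hil} (hz : z ∈ setX) (u : ℕ) :
    ∃ l I J, Valid l I J ∧ l.length = u ∧ InIv u I (z 0) ∧ InIv u J (z 1) ∧
      ‖z - (emb (z 0) (z 1) + tau l I J)‖ ≤ 2 * rho u ∧
      ∀ l₀ a b i, l₀.length < u → z (key l₀ a b i) = tau l I J (key l₀ a b i) := by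
  obtain ⟨l, I, J, x, y, hv, hx, hy, rfl⟩ := hz
  have hz0 : (emb x y + tau l I J : Hil) 0 = x := by
    simp [tau_apply_low]
  have hz1 : (emb x y + tau l I J : Hil) 1 = y := by
    simp [tau_apply_low]
  rw [hz0, hz1]
  have hzk : ∀ l₀ a b i, (emb x y + tau l I J : Hil) (key l₀ a b i) =
      tau l I J (key l₀ a b i) := by
    intro l₀ a b i
    have : key l₀ a b i ≠ 0 ∧ key l₀ a b i ≠ 1 := by unfold key; omega
    simp [this.1, this.2]
  simp only [hzk]
  have e : ∀ τ : Hil, emb x y + tau l I J - (emb x y + τ) = tau l I J - τ := fun τ => by abel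
  simp only [e]
  rcases le_total l.length u with hu | hu
  · suffices H : ∀ d, ∃ l' I' J', Valid l' I' J' ∧ l'.length = l.length + d ∧
        InIv (l.length + d) I' x ∧ InIv (l.length + d) J' y ∧ tau l' I' J' = tau l I J by
      obtain ⟨d, rfl⟩ := Nat.exists_eq_add_of_le hu
      obtain ⟨l', I', J', a1, a2, a3, a4, a5⟩ := H d
      exact ⟨l', I', J', a1, a2, a3, a4, by simp [a5, (rho_pos _).le],
        fun _ _ _ _ _ => by rw [a5]⟩
    intro d
    induction d with
    | zero => exact ⟨l, I, J, hv, rfl, hx, hy, rfl⟩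
    | succ d ih =>
      obtain ⟨l', I', J', a1, a2, a3, a4, a5⟩ := ih
      obtain ⟨I'', b1, b2⟩ := a3.child
      obtain ⟨J'', c1, c2⟩ := a4.child
      refine ⟨none :: l', I'', J'', ⟨by rw [a2, b1, c1]; exact a1, Or.inl rfl⟩,
        by simp [a2]; omega, b2, c2, ?_⟩
      simp [tau, off, a2, b1, c1, a5]
  · suffices H : ∀ d, d ≤ l.length → ∃ l' I' J', Valid l' I' J' ∧ l'.length + d = l.length ∧
        InIv l'.length I' x ∧ InIv l'.length J' y ∧
        ‖tau l I J - tau l' I' J'‖ ≤ 2 * rho l'.length - 2 * rho l.length ∧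
        ∀ l₀ a b i, l₀.length < l'.length →
          tau l I J (key l₀ a b i) = tau l' I' J' (key l₀ a b i) by
      obtain ⟨l', I', J', a1, a2, a3, a4, a5, a6⟩ := H (l.length - u) (Nat.sub_le _ _)
      have : l'.length = u := by omega
      subst this
      exact ⟨l', I', J', a1, rfl, a3, a4, a5.trans (by linarith [rho_pos l.length]), a6⟩
    intro d hd
    induction d with
    | zero => exact ⟨l, I, J, hv, rfl, hx, hy, by simp, fun _ _ _ _ _ => rfl⟩
    | succ d ih =>
      obtain ⟨l', I', J', a1, a2, a3, a4, a5, a6⟩ := ih (by omega)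
      rcases l' with _ | ⟨o, l'⟩
      · simp at a2; omega
      · simp only [List.length_cons] at a2 a3 a4 a5 a6
        refine ⟨l', I' / pn l'.length, J' / pn l'.length, a1.1, by omega,
          a3.parent, a4.parent, ?_, ?_⟩
        · have hn := norm_off_le l' (I' / pn l'.length) (J' / pn l'.length) o
          have h16 := rho_succ_le l'.length
          have := rho_pos (l'.length + 1)
          calc _ = ‖(tau l I J - tau (o :: l') I' J') +
                off l' (I' / pn l'.length) (J' / pn l'.length) o‖ := by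
                congr 1; simp only [tau]; abel
            _ ≤ _ := (norm_add_le _ _).trans (by linarith)
        · intro l₀ a b i h0
          rw [a6 l₀ a b i (by omega)]
          have h1 : off l' (I' / pn l'.length) (J' / pn l'.length) o (key l₀ a b i) = 0 := by
            rw [off_apply]
            rcases o with _ | i'
            · rfl
            · simp only
              rw [if_neg]
              intro hk
              rw [(key_inj hk).1] at h0
              omega
          simp [tau, h1]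

@[irreducible] def win : Finset ℤ := Finset.Icc (-18) 18

lemma mem_win {a : ℤ} : a ∈ win ↔ -18 ≤ a ∧ a ≤ 18 := by
  unfold win; exact Finset.mem_Icc

lemma floor_offset {c x w R : ℝ} {B : ℕ} (hw : 0 < w) (hR : R ≤ 16 * w)
    (h1 : (B : ℝ) * w ≤ x) (h2 : x ≤ ((B : ℝ) + 1) * w) (hc : |x - c| ≤ R) :
    (B : ℤ) - ⌊c / w⌋ ∈ win := by
  have hf1 := Int.floor_le (c / w)
  have hf2 := Int.lt_floor_add_one (c / w)
  rw [le_div_iff₀ hw] at hf1
  rw [div_lt_iff₀ hw] at hf2
  obtain ⟨hc1, hc2⟩ := abs_le.1 hc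
  have u1 : ((B : ℝ) - ⌊c / w⌋) < 18 := lt_of_mul_lt_mul_right (by nlinarith) hw.le
  have u2 : (-19 : ℝ) < ((B : ℝ) - ⌊c / w⌋) := lt_of_mul_lt_mul_right (by nlinarith) hw.le
  have v1 : (B : ℤ) - ⌊c / w⌋ < 18 := by exact_mod_cast u1
  have v2 : (-19 : ℤ) < (B : ℤ) - ⌊c / w⌋ := by exact_mod_cast u2
  rw [mem_win]; omega

lemma InIv.band {s I q : ℕ} {x : ℝ} (hq : 0 < q) (h : InIv s I x) :
    ((I / q : ℕ) : ℝ) * (q * side s) ≤ x ∧ x ≤ (((I / q : ℕ) : ℝ) + 1) * (q * side s) := by
  have hs := side_pos s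
  have e1 : ((I / q : ℕ) : ℝ) * q ≤ I := by exact_mod_cast Nat.div_mul_le_self I q
  have e2 : (I : ℝ) + 1 ≤ ((I / q : ℕ) + 1 : ℝ) * q := by
    have := Nat.lt_div_mul_add (a := I) hq
    have h2 : I + 1 ≤ (I / q + 1) * q := by rw [Nat.add_mul, one_mul]; omega
    exact_mod_cast h2
  obtain ⟨h1, h2⟩ := h
  constructor
  · calc _ = ((I / q : ℕ) : ℝ) * q * side s := by ring
      _ ≤ I * side s := mul_le_mul_of_nonneg_right e1 hs.le
      _ ≤ x := h1
  · calc x ≤ ((I : ℝ) + 1) * side s := h2
      _ ≤ ((I / q : ℕ) + 1 : ℝ) * q * side s := mul_le_mul_of_nonneg_right e2 hs.le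
      _ = _ := by ring

lemma div_through {a b c : ℕ} (x : ℕ) (h : a = b * c) : x / a = x / b / c := by
  rw [h, Nat.div_div_eq_div_mul]

def codeSet : Finset ((ℤ × ℤ) × Option (Bool × ℤ × ℤ)) :=
  (win ×ˢ win) ×ˢ
    Finset.insertNone
      ((Finset.univ : Finset Bool) ×ˢ (win ×ˢ win))

lemma gridcode {a c R : ℝ} (hR : 0 < R) (h : |a - c| ≤ R) :
    ⌊(a - c) / (R / 16)⌋ ∈ win := by
  obtain ⟨h1, h2⟩ := abs_le.1 h
  rw [mem_win]
  constructor
  · apply Int.le_floor.2
    rw [le_div_iff₀ (by positivity)]; push_cast; linarith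
  · apply Int.lt_add_one_iff.1
    apply Int.floor_lt.2
    rw [div_lt_iff₀ (by positivity)]; push_cast; linarith

lemma classify {x : Hil} (hx : x ∈ setX) {R : ℝ} (hR : 0 < R) :
    ∃ G : Option (Bool × ℤ × ℤ) → Hil, ∀ z ∈ setX ∩ closedBall x R,
      ∃ c, ((⌊(z 0 - x 0) / (R / 16)⌋, ⌊(z 1 - x 1) / (R / 16)⌋), c) ∈ codeSet ∧
        ‖z - (emb (z 0) (z 1) + G c)‖ ≤ R / 8 := by
  classical
  have hex : ∃ t, rho t ≤ R / 16 := exists_rho_le (by positivity)
  have hball : ∀ z ∈ setX ∩ closedBall x R, ∀ k, |z k - x k| ≤ R := by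
    intro z hz k
    have h := coord_le (z - x) k
    simp only [lp.coeFn_sub, Pi.sub_apply] at h
    exact h.trans (by simpa [dist_eq_norm] using hz.2)
  have ht : rho (Nat.find hex) ≤ R / 16 := Nat.find_spec hex
  rcases Nat.eq_zero_or_pos (Nat.find hex) with ht0 | htp
  · refine ⟨fun _ => 0, fun z hz => ⟨none, ?_, ?_⟩⟩
    · exact Finset.mem_product.2 ⟨Finset.mem_product.2
        ⟨gridcode hR (hball z hz 0), gridcode hR (hball z hz 1)⟩, Finset.none_mem_insertNone⟩
    · obtain ⟨l, I, J, -, hl, -, -, hd, -⟩ := approx hz.1 0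
      rw [List.length_eq_zero_iff] at hl
      subst hl
      rw [ht0] at ht
      simp only [tau] at hd
      linarith
  obtain ⟨u, hu⟩ : ∃ u, Nat.find hex = u + 1 := ⟨Nat.find hex - 1, by omega⟩
  rw [hu] at ht
  have hru : R / 16 < rho u := not_le.1 (Nat.find_min hex (by omega))
  have hbig : ∀ v, v < u → R < rho v := by
    intro v hv
    have hm : ∀ d, rho (v + 1 + d) ≤ rho (v + 1) := by
      intro d
      induction d with
      | zero => simp
      | succ d ih =>
        have e1 : v + 1 + (d + 1) = v + 1 + d + 1 := rfl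
        have h16 := rho_succ_le (v + 1 + d)
        have h0 := rho_pos (v + 1 + d + 1)
        rw [e1]
        linarith
    obtain ⟨d, hd⟩ := Nat.exists_eq_add_of_le (show v + 1 ≤ u by omega)
    have := hm d
    rw [← hd] at this
    linarith [rho_succ_le v]
  obtain ⟨l₀, I₀, J₀, -, hl₀, -, -, -, hk₀⟩ := approx hx u
  let n := pn u
  let rowkey : ℕ → ℕ → Hil := fun I B =>
    rho u • e (key l₀ I (B / (pm u * pW u * pN u)) (B % pm u))
  let colkey : ℕ → ℕ → Hil := fun J C =>
    rho u • e (key l₀ (C / (pm u * pN u)) J (C % pm u))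
  let G : Option (Bool × ℤ × ℤ) → Hil := fun c => tau l₀ I₀ J₀ + match c with
    | none => 0
    | some (true, a, b) =>
        rowkey (a + ⌊x 0 / side u⌋).toNat (b + ⌊x 1 / rho u⌋).toNat
    | some (false, a, b) =>
        colkey (a + ⌊x 1 / side u⌋).toNat (b + ⌊x 0 / ((pW u : ℝ) * rho u)⌋).toNat
  refine ⟨G, fun z hz => ?_⟩
  obtain ⟨l, I, J, hv, hl, hI, hJ, hd, hk⟩ := approx hz.1 (u + 1)
  rcases l with _ | ⟨o, l⟩
  · simp at hl
  have hlu : l.length = u := by simpa using hl
  have hsame : l = l₀ ∧ tau l (I / pn l.length) (J / pn l.length) = tau l₀ I₀ J₀ := by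
    apply tau_eq_of_coords l l₀ _ _ _ _ (by omega)
    intro l₁ a b i h1
    rw [hlu] at h1
    have e1 := hk l₁ a b i (by omega)
    have e0 := hk₀ l₁ a b i h1
    have h0 : off l (I / pn l.length) (J / pn l.length) o (key l₁ a b i) = 0 := by
      rw [off_apply]
      rcases o with _ | i'
      · rfl
      · simp only
        rw [if_neg]
        intro hkk
        rw [(key_inj hkk).1] at h1
        omega
    simp only [tau, lp.coeFn_add, Pi.add_apply, h0, add_zero] at e1
    have hb := hball z hz (key l₁ a b i)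
    rw [e1, e0] at hb
    have hlt := hbig _ h1
    rcases tau_apply_key l (I / pn l.length) (J / pn l.length) l₁ a b i with p | p <;>
      rcases tau_apply_key l₀ I₀ J₀ l₁ a b i with q | q <;>
      rw [p, q] at hb ⊢ <;>
      first
        | rfl
        | (simp [abs_of_pos (rho_pos l₁.length)] at hb; linarith)
  obtain ⟨rfl, htau⟩ := hsame
  rw [hlu] at htau
  have hR16 : R ≤ 16 * rho u := by linarith
  have hRside : R ≤ 16 * side u := by linarith [rho_le_side u, rho_pos u]
  have hIp := hI.parent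
  have hJp := hJ.parent
  have cI := floor_offset (side_pos u) hRside hIp.1 hIp.2 (hball z hz 0)
  have cJ := floor_offset (side_pos u) hRside hJp.1 hJp.2 (hball z hz 1)
  have bJ := hJ.band (pQ_pos u)
  have bI := hI.band (Nat.mul_pos (pQ_pos u) (pW_pos u))
  rw [show ((pQ u : ℕ) : ℝ) * side (u + 1) = rho u from rfl] at bJ
  have cB := floor_offset (rho_pos u) hR16 bJ.1 bJ.2 (hball z hz 1)
  have hw : 0 < (pW u : ℝ) * rho u := by
    have := pW_pos u; have := rho_pos u; positivity
  have hwe : ((pQ u * pW u : ℕ) : ℝ) * side (u + 1) = (pW u : ℝ) * rho u := by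
    simp [rho]; ring
  rw [hwe] at bI
  have hwge : R ≤ 16 * ((pW u : ℝ) * rho u) := by
    have h1 : (1 : ℝ) ≤ pW u := by exact_mod_cast pW_pos u
    nlinarith [rho_pos u]
  have cC := floor_offset hw hwge bI.1 bI.2 (hball z hz 0)
  have hfin : ∀ c, G c = tau (o :: l) I J →
      ‖z - (emb (z 0) (z 1) + G c)‖ ≤ R / 8 := by
    intro c hc; rw [hc]; linarith
  have mem : ∀ c, c ∈ Finset.insertNone ((Finset.univ : Finset Bool) ×ˢ
      (win ×ˢ win)) →
      ((⌊(z 0 - x 0) / (R / 16)⌋, ⌊(z 1 - x 1) / (R / 16)⌋), c) ∈ codeSet := fun c hc => Finset.mem_product.2 ⟨Finset.mem_product.2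
      ⟨gridcode hR (hball z hz 0), gridcode hR (hball z hz 1)⟩, hc⟩
  have hok : OkChoice u o I J := by simpa [hlu] using hv.2
  rcases hok with rfl | rfl | rfl
  · refine ⟨none, mem _ Finset.none_mem_insertNone, hfin none ?_⟩
    simp [G, tau, off, hlu, htau]
  · have hc : G (some (true, ((I / pn u : ℕ) : ℤ) - ⌊x 0 / side u⌋,
        ((J / pQ u : ℕ) : ℤ) - ⌊x 1 / rho u⌋)) = tau (some (J / pQ u % pm u) :: l) I J := by
      simp only [G, rowkey, tau, off, hlu, htau, sub_add_cancel, Int.toNat_natCast]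
      rw [← div_through J (show pn u = pQ u * (pm u * pW u * pN u) by unfold pn; ring)]
    have hm : some (true, ((I / pn u : ℕ) : ℤ) - ⌊x 0 / side u⌋,
        ((J / pQ u : ℕ) : ℤ) - ⌊x 1 / rho u⌋) ∈
        Finset.insertNone ((Finset.univ : Finset Bool) ×ˢ (win ×ˢ win)) :=
      Finset.some_mem_insertNone.2 (Finset.mem_product.2
        ⟨Finset.mem_univ _, Finset.mem_product.2 ⟨cI, cB⟩⟩)
    have h3 := hfin (some (true, ((I / pn u : ℕ) : ℤ) - ⌊x 0 / side u⌋,
      ((J / pQ u : ℕ) : ℤ) - ⌊x 1 / rho u⌋)) hc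
    exact ⟨_, mem _ hm, h3⟩
  · have hc : G (some (false, ((J / pn u : ℕ) : ℤ) - ⌊x 1 / side u⌋,
        ((I / (pQ u * pW u) : ℕ) : ℤ) - ⌊x 0 / ((pW u : ℝ) * rho u)⌋)) = tau (some (I / (pQ u * pW u) % pm u) :: l) I J := by
      simp only [G, colkey, tau, off, hlu, htau, sub_add_cancel, Int.toNat_natCast]
      rw [← div_through I (show pn u = pQ u * pW u * (pm u * pN u) by unfold pn; ring)]
    have hm : some (false, ((J / pn u : ℕ) : ℤ) - ⌊x 1 / side u⌋,
        ((I / (pQ u * pW u) : ℕ) : ℤ) - ⌊x 0 / ((pW u : ℝ) * rho u)⌋) ∈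
        Finset.insertNone ((Finset.univ : Finset Bool) ×ˢ (win ×ˢ win)) :=
      Finset.some_mem_insertNone.2 (Finset.mem_product.2
        ⟨Finset.mem_univ _, Finset.mem_product.2 ⟨cJ, cC⟩⟩)
    have h3 := hfin (some (false, ((J / pn u : ℕ) : ℤ) - ⌊x 1 / side u⌋,
      ((I / (pQ u * pW u) : ℕ) : ℤ) - ⌊x 0 / ((pW u : ℝ) * rho u)⌋)) hc
    exact ⟨_, mem _ hm, h3⟩


theorem setX_doubling : ∃ lam : ℕ, ∀ x ∈ setX, ∀ R : ℝ, 0 < R → ∃ t : Finset Hil,
    ↑t ⊆ setX ∧ t.card ≤ lam ∧ setX ∩ closedBall x R ⊆ ⋃ y ∈ t, closedBall y (R / 2) := by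
  classical
  refine ⟨codeSet.card, fun x hx R hR => ?_⟩
  -- it suffices to classify the points of the ball by codes
  suffices H : ∃ G : Option (Bool × ℤ × ℤ) → Hil, ∀ z ∈ setX ∩ closedBall x R,
      ∃ c, ((⌊(z 0 - x 0) / (R / 16)⌋, ⌊(z 1 - x 1) / (R / 16)⌋), c) ∈ codeSet ∧
        ‖z - (emb (z 0) (z 1) + G c)‖ ≤ R / 8 by
    obtain ⟨G, hG⟩ := H
    let P : Hil → (ℤ × ℤ) × Option (Bool × ℤ × ℤ) → Prop := fun z c =>
      z ∈ setX ∧ ⌊(z 0 - x 0) / (R / 16)⌋ = c.1.1 ∧ ⌊(z 1 - x 1) / (R / 16)⌋ = c.1.2 ∧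
        ‖z - (emb (z 0) (z 1) + G c.2)‖ ≤ R / 8
    let rep : (ℤ × ℤ) × Option (Bool × ℤ × ℤ) → Hil := fun c =>
      if h : ∃ z, P z c then h.choose else x
    have hrep : ∀ c, rep c ∈ setX := by
      intro c
      by_cases h : ∃ z, P z c
      · simp only [rep, dif_pos h]; exact h.choose_spec.1
      · simp only [rep, dif_neg h]; exact hx
    refine ⟨codeSet.image rep, ?_, Finset.card_image_le, ?_⟩
    · intro w hw
      simp only [Finset.coe_image, Set.mem_image] at hw
      obtain ⟨c, _, rfl⟩ := hw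
      exact hrep c
    · intro z hz
      obtain ⟨c, hc1, hc2⟩ := hG z hz
      let C := ((⌊(z 0 - x 0) / (R / 16)⌋, ⌊(z 1 - x 1) / (R / 16)⌋), c)
      have hP : P z C := ⟨hz.1, rfl, rfl, hc2⟩
      refine Set.mem_iUnion₂.2 ⟨rep C, Finset.mem_image.2 ⟨C, hc1, rfl⟩, ?_⟩
      have hex : ∃ w, P w C := ⟨z, hP⟩
      have hw : P (rep C) C := by simp only [rep, dif_pos hex]; exact hex.choose_spec
      generalize rep C = w at hw ⊢
      obtain ⟨-, hw0, hw1, hw2⟩ := hw
      have close : ∀ a b : ℝ, ⌊a / (R / 16)⌋ = ⌊b / (R / 16)⌋ → |a - b| ≤ R / 16 := by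
        intro a b hab
        have h := (Int.abs_sub_lt_one_of_floor_eq_floor hab).le
        rw [← sub_div, abs_div, abs_of_pos (by positivity : (0 : ℝ) < R / 16),
          div_le_one (by positivity)] at h
        exact h
      have d0 := close _ _ hw0
      have d1 := close _ _ hw1
      rw [sub_sub_sub_cancel_right] at d0 d1
      rw [mem_closedBall, dist_eq_norm, norm_sub_rev]
      calc ‖w - z‖ = ‖((w - (emb (w 0) (w 1) + G c)) - (z - (emb (z 0) (z 1) + G c))) +
            (emb (w 0) (w 1) - emb (z 0) (z 1))‖ := by congr 1; abel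
        _ ≤ R / 8 + R / 8 + (R / 16 + R / 16) := by
          refine (norm_add_le _ _).trans (add_le_add ((norm_sub_le _ _).trans
            (add_le_add hw2 hc2)) ?_)
          rw [emb_sub]
          exact (norm_emb_le _ _).trans (add_le_add d0 d1)
        _ ≤ R / 2 := by linarith
  exact classify hx hR

end Vale.Agent.P208
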