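import Vale.Agent.P208.Pattern

/-!
No map from the set to a finite dimensional space is bi-Lipschitz: an extremal argument
selects nodes to which the pattern analysis applies.
-/

noncomputable section

set_option linter.unusedSectionVars false

namespace Vale.Agent.P208

open scoped BigOperators
open Metric

/-- the type of nodes -/
abbrev Nd : Type := {q : List (Option ℕ) × ℕ × ℕ // Valid q.1 q.2.1 q.2.2}

instance : Nonempty Nd := ⟨⟨([], 0, 0), rfl, rfl⟩⟩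

/-- a pigeonhole principle in a compact ball -/
lemma packing (E : Type*) [NormedAddCommGroup E] [NormedSpace ℝ E] [FiniteDimensional ℝ E]
    (K : ℝ) {δ : ℝ} (hδ : 0 < δ) :
    ∃ m : ℕ, 0 < m ∧ ∀ u : Fin m → E, (∀ i, ‖u i‖ ≤ K) → ∃ i j, i ≠ j ∧ ‖u i - u j‖ < δ := by
  have hp : ProperSpace E := FiniteDimensional.proper ℝ E
  obtain ⟨t, -, htf, hcov⟩ :=
    finite_cover_balls_of_compact (isCompact_closedBall (0 : E) K) (half_pos hδ)
  refine ⟨htf.toFinset.card + 1, Nat.succ_pos _, fun u hu => ?_⟩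
  have hmem : ∀ i, ∃ c ∈ htf.toFinset, u i ∈ ball c (δ / 2) := fun i => by
    have := hcov (mem_closedBall_zero_iff.2 (hu i))
    simpa using this
  choose c hc hcu using hmem
  obtain ⟨i, j, hij, he⟩ := Fintype.exists_ne_map_eq_of_card_lt
    (fun i => (⟨c i, hc i⟩ : htf.toFinset)) (by simp)
  have he' : c i = c j := congrArg Subtype.val he
  refine ⟨i, j, hij, ?_⟩
  rw [← dist_eq_norm]
  have h1 := hcu i
  have h2 := hcu j
  rw [mem_ball] at h1 h2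
  rw [he'] at h1
  calc dist (u i) (u j) ≤ dist (u i) (c j) + dist (u j) (c j) := dist_triangle_right _ _ _
    _ < δ := by linarith

section Search

variable {E : Type*} [NormedAddCommGroup E] [InnerProductSpace ℝ E] [CompleteSpace E]
variable {F : Hil → E} {K : ℝ} (hK : ∀ u v, ‖F u - F v‖ ≤ K * ‖u - v‖)

include hK

lemma exists_child {lam : ℝ} (hlam : 0 ≤ lam) {l : List (Option ℕ)} {I J : ℕ}
    (hv : Valid l I J) :
    ∃ a b, a < pn l.length ∧ b < pn l.length ∧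
      Valid (none :: l) (I * pn l.length + a) (J * pn l.length + b) ∧
      ‖nY F l I J‖ + lam * ‖nX F l I J‖ ≤
        ‖nY F (none :: l) (I * pn l.length + a) (J * pn l.length + b)‖ +
          lam * ‖nX F (none :: l) (I * pn l.length + a) (J * pn l.length + b)‖ := by
  set P := Finset.range (pn l.length) ×ˢ Finset.range (pn l.length) with hP
  obtain ⟨hx, hy⟩ := sum_base hK l I J
  have hne : P.Nonempty := ⟨(0, 0), by simp [hP, pn_pos]⟩
  obtain ⟨c, hc, hle⟩ := Finset.exists_le_of_sum_le hne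
    (f := fun _ => ‖nY F l I J‖ + lam * ‖nX F l I J‖)
    (g := fun c => ‖cellY F l I J none c.1 c.2‖ + lam * ‖cellX F l I J none c.1 c.2‖) (by
    have h1 := norm_sum_le P (fun c => cellY F l I J none c.1 c.2)
    have h2 := norm_sum_le P (fun c => cellX F l I J none c.1 c.2)
    rw [hy, norm_smul, Real.norm_eq_abs, Nat.abs_cast] at h1
    rw [hx, norm_smul, Real.norm_eq_abs, Nat.abs_cast] at h2
    have h3 := mul_le_mul_of_nonneg_left h2 hlam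
    rw [Finset.sum_const, nsmul_eq_mul, Finset.sum_add_distrib, ← Finset.mul_sum]
    linarith)
  simp only [hP, Finset.mem_product, Finset.mem_range] at hc
  refine ⟨c.1, c.2, hc.1, hc.2, ⟨by rw [child_div I hc.1, child_div J hc.2]; exact hv, Or.inl rfl⟩,
    ?_⟩
  obtain ⟨e1, e2⟩ := cell_eq_child F l I J none hc.1 hc.2
  rw [← e1, ← e2]
  exact hle

lemma descend {lam : ℝ} (hlam : 0 ≤ lam) (q : Nd) : ∀ d, ∃ q' : Nd,
    q'.1.1.length = q.1.1.length + d ∧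
    ‖nY F q.1.1 q.1.2.1 q.1.2.2‖ + lam * ‖nX F q.1.1 q.1.2.1 q.1.2.2‖ ≤
      ‖nY F q'.1.1 q'.1.2.1 q'.1.2.2‖ + lam * ‖nX F q'.1.1 q'.1.2.1 q'.1.2.2‖
  | 0 => ⟨q, rfl, le_rfl⟩
  | d + 1 => by
    obtain ⟨⟨⟨l, I, J⟩, hv⟩, hl, hle⟩ := descend hlam q d
    obtain ⟨a, b, -, -, hval, hle'⟩ := exists_child hK hlam hv
    refine ⟨⟨(none :: l, I * pn l.length + a, J * pn l.length + b), hval⟩, ?_, hle.trans hle'⟩
    simp only [List.length_cons] at hl ⊢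
    omega

/-- almost extremal nodes at prescribed levels -/
lemma extremal :
    ∃ S₁, 0 ≤ S₁ ∧ S₁ ≤ K ∧ (∀ l I J, Valid l I J → ‖nX F l I J‖ ≤ S₁) ∧
      ∀ β : ℝ, 0 < β → ∃ S lam, 0 ≤ S ∧ S ≤ K ∧ 0 ≤ lam ∧
        (∀ l I J, Valid l I J → ‖nY F l I J‖ ≤ S + lam * (S₁ - ‖nX F l I J‖)) ∧
        ∀ η : ℝ, 0 < η → ∀ s₀ m' Q' W' : ℕ, ∃ s l I J, s₀ ≤ s ∧ pm s = m' + 1 ∧
          pQ s = Q' + 1 ∧ pW s = W' + 1 ∧ Valid l I J ∧ l.length = s ∧
          S₁ - η ≤ ‖nX F l I J‖ ∧ S - β ≤ ‖nY F l I J‖ := by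
  have hK0 := K_nonneg hK
  let hp : Nd → ℝ := fun q => ‖nX F q.1.1 q.1.2.1 q.1.2.2‖
  let vp : Nd → ℝ := fun q => ‖nY F q.1.1 q.1.2.1 q.1.2.2‖
  have hp_le : ∀ q, hp q ≤ K := fun q => norm_cX_le hK _ _ _ (side_pos _)
  have vp_le : ∀ q, vp q ≤ K := fun q => norm_cY_le hK _ _ _ (side_pos _)
  set S₁ := ⨆ q, hp q with hS₁
  have bdd₁ : BddAbove (Set.range hp) := ⟨K, Set.forall_mem_range.2 hp_le⟩
  have le_S₁ : ∀ q, hp q ≤ S₁ := fun q => le_ciSup bdd₁ q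
  have S₁K : S₁ ≤ K := ciSup_le hp_le
  have S₁0 : 0 ≤ S₁ := (norm_nonneg _).trans (le_S₁ (Classical.arbitrary Nd))
  refine ⟨S₁, S₁0, S₁K, fun l I J hv => le_S₁ ⟨(l, I, J), hv⟩, ?_⟩
  let P : {x : ℝ // 0 ≤ x} → ℝ := fun lam => ⨆ q, vp q + lam.1 * (hp q - S₁)
  have upperK : ∀ (lam : {x : ℝ // 0 ≤ x}) q, vp q + lam.1 * (hp q - S₁) ≤ K := fun lam q => by
    have := mul_nonpos_of_nonneg_of_nonpos lam.2 (sub_nonpos.2 (le_S₁ q))
    linarith [vp_le q]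
  have bddP : ∀ lam : {x : ℝ // 0 ≤ x},
      BddAbove (Set.range fun q => vp q + lam.1 * (hp q - S₁)) := fun lam =>
    ⟨K, Set.forall_mem_range.2 (upperK lam)⟩
  have le_P : ∀ lam q, vp q + lam.1 * (hp q - S₁) ≤ P lam := fun lam q => le_ciSup (bddP lam) q
  have PK : ∀ lam, P lam ≤ K := fun lam => ciSup_le (upperK lam)
  have P0 : ∀ lam, 0 ≤ P lam := by
    intro lam
    refine le_of_forall_pos_le_add fun ε hε => ?_
    have hl1 : 0 < lam.1 + 1 := by linarith [lam.2]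
    obtain ⟨q, hq⟩ := exists_lt_of_lt_ciSup
      (show S₁ - ε / (lam.1 + 1) < S₁ by linarith [div_pos hε hl1])
    have h1 := mul_le_mul_of_nonneg_left hq.le lam.2
    have h2 : lam.1 * (ε / (lam.1 + 1)) ≤ ε := by
      rw [mul_div_assoc', div_le_iff₀ hl1]
      linarith [mul_comm lam.1 ε]
    have h3 : 0 ≤ vp q := norm_nonneg _
    linarith [le_P lam q]
  have hne : Nonempty {x : ℝ // 0 ≤ x} := ⟨⟨0, le_rfl⟩⟩
  have bddI : BddBelow (Set.range P) := ⟨0, Set.forall_mem_range.2 P0⟩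
  set S₂ := ⨅ lam, P lam
  have S₂0 : 0 ≤ S₂ := le_ciInf P0
  intro β hβ
  obtain ⟨lam, hlam⟩ := exists_lt_of_ciInf_lt
    (show ⨅ lam, P lam < S₂ + β / 2 by simp only [S₂]; linarith)
  refine ⟨P lam, lam.1, P0 lam, PK lam, lam.2, fun l I J hv => ?_, ?_⟩
  · have h : ‖nY F l I J‖ + lam.1 * (‖nX F l I J‖ - S₁) ≤ P lam := le_P lam ⟨(l, I, J), hv⟩
    linarith
  intro η hη s₀ m' Q' W'
  let lam' : {x : ℝ // 0 ≤ x} := ⟨(K + β) / η, by positivity⟩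
  obtain ⟨q₀, hq₀⟩ := exists_lt_of_lt_ciSup
    (show S₂ - β / 2 < ⨆ q, vp q + lam'.1 * (hp q - S₁) by
      have : S₂ ≤ P lam' := ciInf_le bddI lam'
      simp only [P] at this
      linarith)
  obtain ⟨s, hs, hsm, hsQ, hsW⟩ := exists_level m' Q' W' (max s₀ q₀.1.1.length)
  obtain ⟨q, hql, hqle⟩ := descend hK lam'.2 q₀ (s - q₀.1.1.length)
  have hlen : q.1.1.length = s := by
    rw [hql]; have := le_max_right s₀ q₀.1.1.length; omega
  change vp q₀ + lam'.1 * hp q₀ ≤ vp q + lam'.1 * hp q at hqle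
  have hq : S₂ - β / 2 < vp q + lam'.1 * (hp q - S₁) := by linarith
  have hA : S₁ - η ≤ hp q := by
    by_contra hc
    have h1 := mul_le_mul_of_nonneg_left (show η ≤ S₁ - hp q by linarith) lam'.2
    have h2 : lam'.1 * η = K + β := by simp only [lam']; field_simp
    linarith [vp_le q]
  have hB : P lam - β ≤ vp q := by
    have h1 := mul_nonpos_of_nonneg_of_nonpos lam'.2 (sub_nonpos.2 (le_S₁ q))
    linarith
  exact ⟨s, _, _, _, (le_max_left _ _).trans hs, hsm, hsQ, hsW, q.2, hlen, hA, hB⟩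

omit hK in
lemma root_small {P X ζ : ℝ} (hP : 0 < P) (hζ : 0 < ζ) (h : X ≤ (ζ / P) ^ 2) :
    P * Real.sqrt X ≤ ζ := by
  have h1 : Real.sqrt X ≤ ζ / P := Real.sqrt_le_iff.2 ⟨by positivity, h⟩
  rwa [le_div_iff₀ hP, mul_comm] at h1

omit hK in
lemma small_sum {e₁ e₂ lam β η W N qn : ℝ} (he₁ : 0 < e₁) (he₂ : 0 < e₂) (hlam : 0 ≤ lam)
    (hK0 : 0 ≤ K) (hη : 0 ≤ η) (hW : 0 < W) (hN : 0 < N)
    (hβ : β = e₁ / (32 * (K + 1)))
    (hη' : η = min (e₁ / (32 * (K + 1) * (lam + 1))) (e₂ / (16 * (K + 1))))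
    (hW' : 32 * K ^ 2 * lam / e₁ ≤ W)
    (hN' : 32 * K ^ 2 / e₁ + 16 * K ^ 2 / e₂ ≤ N) (hqn : qn ≤ 1 / N) :
    8 * K * β + 8 * K * lam * η + 8 * K ^ 2 * (lam / W) + 8 * K ^ 2 * qn ≤ e₁ ∧
      8 * K * η + 8 * K ^ 2 * qn ≤ e₂ := by
  have h1 := mul_le_mul_of_nonneg_left hqn (by positivity : 0 ≤ 8 * K ^ 2)
  rw [mul_one_div] at h1
  have h2 : 0 ≤ 32 * K ^ 2 / e₁ := by positivity
  have h3 : 0 ≤ 16 * K ^ 2 / e₂ := by positivity
  have h4 : 32 * K ^ 2 / e₁ ≤ N := by linarith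
  have h5 : 16 * K ^ 2 / e₂ ≤ N := by linarith
  rw [div_le_iff₀ he₁] at h4
  rw [div_le_iff₀ he₂] at h5
  have a1 : 8 * K ^ 2 / N ≤ e₁ / 4 := by rw [div_le_iff₀ hN]; linarith
  have a2 : 8 * K ^ 2 / N ≤ e₂ / 2 := by rw [div_le_iff₀ hN]; linarith
  have b1 : 8 * K * β ≤ e₁ / 4 := by
    calc 8 * K * β = K / (K + 1) * (e₁ / 4) := by rw [hβ]; field_simp; ring
      _ ≤ 1 * (e₁ / 4) := mul_le_mul_of_nonneg_right
          ((div_le_one (by positivity)).2 (by linarith)) (by positivity)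
      _ = e₁ / 4 := one_mul _
  have g1 := min_le_left (e₁ / (32 * (K + 1) * (lam + 1))) (e₂ / (16 * (K + 1)))
  have g2 := min_le_right (e₁ / (32 * (K + 1) * (lam + 1))) (e₂ / (16 * (K + 1)))
  rw [← hη', le_div_iff₀ (by positivity)] at g1 g2
  have c1 : 8 * K * lam * η ≤ e₁ / 4 := by
    have h : K * lam ≤ (K + 1) * (lam + 1) := by nlinarith
    linarith [mul_le_mul_of_nonneg_left h hη]
  have c2 : 8 * K * η ≤ e₂ / 2 := by
    linarith [mul_le_mul_of_nonneg_left (show K ≤ K + 1 by linarith) hη]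
  rw [div_le_iff₀ he₁] at hW'
  have d1 : 8 * K ^ 2 * (lam / W) ≤ e₁ / 4 := by
    rw [mul_div_assoc', div_le_iff₀ hW]; linarith
  exact ⟨by linarith, by linarith⟩

/-- a Lipschitz map of Hilbert space into a finite dimensional space contracts some
pair of points of the set by an arbitrarily large factor -/
theorem not_antilipschitz [FiniteDimensional ℝ E] {a : ℝ} (ha : 0 < a) :
    ¬ ∀ u ∈ setX, ∀ v ∈ setX, a * ‖u - v‖ ≤ ‖F u - F v‖ := by
  intro hlow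
  have hK0 := K_nonneg hK
  obtain ⟨m, hm, hpack⟩ := packing E K (half_pos ha)
  obtain ⟨m', rfl⟩ : ∃ m', m = m' + 1 := ⟨m - 1, by omega⟩
  obtain ⟨Q', hQ'⟩ := exists_nat_gt (32 * K / a)
  obtain ⟨S₁, S₁0, S₁K, hX, hext⟩ := extremal hK
  obtain ⟨ζ, hζdef⟩ : ∃ ζ : ℝ, ζ = a / (32 * ((m' : ℝ) + 1)) := ⟨_, rfl⟩
  have hζ : 0 < ζ := by rw [hζdef]; positivity
  obtain ⟨Py, hPy⟩ : ∃ P : ℝ, P = (((m' + 1) * (Q' + 1) : ℕ) : ℝ) := ⟨_, rfl⟩
  have hPy0 : 0 < Py := by rw [hPy]; positivity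
  obtain ⟨S, lam, S0, SK, hl0, hY, hnode⟩ :=
    hext ((ζ / Py) ^ 2 / (32 * (K + 1))) (by positivity)
  obtain ⟨W', hW'⟩ := exists_nat_gt (32 * K ^ 2 * lam / (ζ / Py) ^ 2)
  obtain ⟨Px, hPx⟩ : ∃ P : ℝ, P = (((m' + 1) * (W' + 1) * (Q' + 1) : ℕ) : ℝ) := ⟨_, rfl⟩
  have hPx0 : 0 < Px := by rw [hPx]; positivity
  obtain ⟨η, hη'⟩ : ∃ η : ℝ, η = min ((ζ / Py) ^ 2 / (32 * (K + 1) * (lam + 1)))
      ((ζ / Px) ^ 2 / (16 * (K + 1))) := ⟨_, rfl⟩
  have hη : 0 < η := by rw [hη']; exact lt_min (by positivity) (by positivity)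
  obtain ⟨s₀, hs₀⟩ :=
    exists_nat_gt (32 * K ^ 2 / (ζ / Py) ^ 2 + 16 * K ^ 2 / (ζ / Px) ^ 2)
  obtain ⟨s, l, I, J, hs, hsm, hsQ, hsW, hval, hlen, hA, hB⟩ := hnode η hη s₀ m' Q' W'
  obtain ⟨u, hu, hsep⟩ := separated_vectors hK hval S₁0 S₁K S0 SK hl0 hη.le (by positivity)
    ha.le hX hY hA hB hlow hlen rfl
  have hNp : (0 : ℝ) < pN s := Nat.cast_pos.2 (Nat.lt_of_lt_of_le (by norm_num) (pN_ge s))
  have hN : (pQ s : ℝ) / pn s ≤ 1 / (pN s : ℝ) := by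
    rw [div_le_div_iff₀ (Nat.cast_pos.2 (pn_pos s)) hNp, one_mul]
    have h : pQ s * pN s ≤ pn s := by
      calc pQ s * pN s = 1 * (pQ s * 1 * pN s) := by ring
        _ ≤ pm s * (pQ s * pW s * pN s) :=
          Nat.mul_le_mul (pm_pos s) (Nat.mul_le_mul_right _ (Nat.mul_le_mul_left _ (pW_pos s)))
        _ = pn s := by simp only [pn]; ring
    exact_mod_cast h
  have hNs : (s₀ : ℝ) ≤ pN s := by
    have h2 : s₀ ≤ pN s := by simp only [pN]; omega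
    exact_mod_cast h2
  obtain ⟨small₁, small₂⟩ := small_sum (K := K) (W := (pW s : ℝ)) (N := (pN s : ℝ))
    (pow_pos (div_pos hζ hPy0) 2) (pow_pos (div_pos hζ hPx0) 2) hl0 hK0 hη.le
    (Nat.cast_pos.2 (pW_pos s)) hNp rfl hη'
    (by rw [hsW]; push_cast; linarith) (by linarith) hN
  have hy := root_small hPy0 hζ small₁
  have hx := root_small hPx0 hζ small₂
  have ePy : ((pm s * pQ s : ℕ) : ℝ) = Py := by rw [hPy, hsm, hsQ]
  have ePx : ((pm s * pW s * pQ s : ℕ) : ℝ) = Px := by rw [hPx, hsm, hsW, hsQ]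
  rw [ePx, ePy] at hsep
  obtain ⟨i, j, hij, hd⟩ := hpack (fun i => u (Fin.cast hsm.symm i)) (fun i => hu _)
  have hlt := (hsep (Fin.cast hsm.symm i) (Fin.cast hsm.symm j)
    (fun h => hij (Fin.cast_injective _ h))).trans_lt hd
  have hQp : (0 : ℝ) < pQ s := Nat.cast_pos.2 (pQ_pos s)
  have hQ2 : 32 * K / a ≤ pQ s := by rw [hsQ]; push_cast; linarith
  rw [div_le_iff₀ ha] at hQ2
  have hσ := mul_le_mul_of_nonneg_left (add_le_add hx hy) (Nat.cast_nonneg (α := ℝ) (pm s))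
  have hz : (pm s : ℝ) * (ζ + ζ) = a / 16 := by
    rw [hsm, hζdef]; push_cast; field_simp; norm_num
  rw [hz] at hσ
  rw [sub_lt_comm, lt_div_iff₀ hQp] at hlt
  have h1 : (1 : ℝ) ≤ pQ s := by exact_mod_cast pQ_pos s
  have := mul_le_mul_of_nonneg_left h1 ha.le
  linarith

end Search

end Vale.Agent.P208
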