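import Vale.Agent.P208.Averages

/-!
Analysis of one node: if its mean derivatives are nearly extremal then the label
translations give many well separated vectors in a fixed ball.
-/

noncomputable section

set_option linter.unusedSectionVars false

namespace Vale.Agent.P208

open scoped BigOperators

variable {E : Type*} [NormedAddCommGroup E] [InnerProductSpace ℝ E] [CompleteSpace E]

/-- horizontal potential of a node -/
def nX (F : Hil → E) (l : List (Option ℕ)) (I J : ℕ) : E :=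
  cX F (tau l I J) (I * side l.length) (J * side l.length) (side l.length)

def nY (F : Hil → E) (l : List (Option ℕ)) (I J : ℕ) : E :=
  cY F (tau l I J) (I * side l.length) (J * side l.length) (side l.length)

lemma child_div (I : ℕ) {n a : ℕ} (ha : a < n) : (I * n + a) / n = I := by
  rw [Nat.mul_comm, Nat.mul_add_div (by omega), Nat.div_eq_of_lt ha, add_zero]

lemma tau_child (l : List (Option ℕ)) (I J : ℕ) (o : Option ℕ) {a b : ℕ}
    (ha : a < pn l.length) (hb : b < pn l.length) :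
    tau (o :: l) (I * pn l.length + a) (J * pn l.length + b) = tau l I J + off l I J o := by
  simp only [tau, child_div I ha, child_div J hb]

lemma row_label (s J b : ℕ) : (J * pn s + b) / pQ s % pm s = b / pQ s % pm s := by
  have e1 : J * pn s + b = pQ s * (pm s * (J * (pW s * pN s))) + b := by unfold pn; ring
  rw [e1, Nat.mul_add_div (pQ_pos s), Nat.mul_add_mod]

lemma col_label (s I a : ℕ) :
    (I * pn s + a) / (pQ s * pW s) % pm s = a / (pQ s * pW s) % pm s := by
  have e1 : I * pn s + a = pQ s * pW s * (pm s * (I * pN s)) + a := by unfold pn; ring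
  rw [e1, Nat.mul_add_div (Nat.mul_pos (pQ_pos s) (pW_pos s)), Nat.mul_add_mod]

lemma band_index {q c : ℕ} (hc : c < q) (p : ℕ) : (p * q + c) / q = p := child_div p hc

lemma label_index {m i : ℕ} (hi : i < m) (p : ℕ) : (p * m + i) % m = i := by
  rw [Nat.mul_comm, Nat.mul_add_mod, Nat.mod_eq_of_lt hi]

lemma sq_diff_le (u w A : E) : ‖u - w‖ ^ 2 ≤ 2 * ‖u - A‖ ^ 2 + 2 * ‖w - A‖ ^ 2 := by
  have h : ‖u - w‖ ≤ ‖u - A‖ + ‖w - A‖ := by
    calc ‖u - w‖ = ‖(u - A) - (w - A)‖ := by rw [sub_sub_sub_cancel_right]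
      _ ≤ _ := norm_sub_le _ _
  have h0 := norm_nonneg (u - w)
  nlinarith [sq_nonneg (‖u - A‖ - ‖w - A‖)]

lemma sq_deficit {S v η K : ℝ} (hS : S - η ≤ v) (h0 : 0 ≤ v) (hS0 : 0 ≤ S) (hSK : S ≤ K)
    (hη : 0 ≤ η) : S ^ 2 - v ^ 2 ≤ 2 * K * η := by
  rcases le_or_gt S v with h | h
  · have h1 : S ^ 2 ≤ v ^ 2 := pow_le_pow_left₀ hS0 h 2
    have : 0 ≤ K * η := mul_nonneg (hS0.trans hSK) hη
    linarith
  · have h1 : (S - v) * (S + v) ≤ η * (2 * K) :=
      mul_le_mul (by linarith) (by linarith) (by linarith) hη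
    nlinarith

lemma sq_upper {S v d lam K : ℝ} (hv : v ≤ S + lam * d) (h0 : 0 ≤ v) (hS0 : 0 ≤ S)
    (hvK : v ≤ K) (hld : 0 ≤ lam * d) : v ^ 2 ≤ S ^ 2 + 2 * K * (lam * d) := by
  rcases le_or_gt v S with h | h
  · have h1 : v ^ 2 ≤ S ^ 2 := pow_le_pow_left₀ h0 h 2
    have : 0 ≤ K * (lam * d) := mul_nonneg (h0.trans hvK) hld
    linarith
  · have h1 : (v - S) * (v + S) ≤ (lam * d) * (2 * K) :=
      mul_le_mul (by linarith) (by linarith) (by linarith) hld
    nlinarith

lemma arith_x {M S A K η q n qn : ℝ} (hd : M * (S ^ 2 - A ^ 2) ≤ M * (2 * K * η))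
    (h3 : M * qn = n * q) :
    2 * (M * S ^ 2 - M * A ^ 2 + 2 * (n * (2 * K * q)) * K) + 2 * (M * S ^ 2 - M * A ^ 2) ≤
      M * (8 * K * η + 8 * K ^ 2 * qn) := by
  linear_combination 4 * hd + 8 * K ^ 2 * h3.ge

lemma arith_y {M S B K β lam η W q n qn : ℝ} (hd : M * (S ^ 2 - B ^ 2) ≤ M * (2 * K * β))
    (h3 : M * qn = n * q) :
    2 * (M * (S ^ 2 + 2 * K * lam * (η + 2 * K / W)) - M * B ^ 2 +
        2 * (n * (2 * K * q)) * K) +
      2 * (M * (S ^ 2 + 2 * K * lam * (η + 0)) - M * B ^ 2) ≤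
      M * (8 * K * β + 8 * K * lam * η + 8 * K ^ 2 * (lam / W) + 8 * K ^ 2 * qn) := by
  linear_combination 4 * hd + 8 * K ^ 2 * h3.ge

lemma inv_sq_band {K ρ r q : ℝ} (hr : 0 < r) (hρ : ρ = q * r) {a b : E}
    (ha : ‖a‖ ≤ K * ρ * r) (hb : ‖b‖ ≤ K * ρ * r) :
    ‖(r ^ 2)⁻¹ • (a - b)‖ ≤ 2 * K * q := by
  rw [norm_smul, norm_inv, Real.norm_eq_abs, abs_of_pos (by positivity : 0 < r ^ 2),
    inv_mul_le_iff₀ (by positivity)]
  subst hρ
  linarith [norm_sub_le a b]

/-- variance comparison of two families with the same mean -/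
lemma two_dev {ι : Type*} (s : Finset ι) (u w : ι → E) (A : E) {C K U₁ U₂ : ℝ}
    (hu : ‖∑ c ∈ s, u c - (s.card : ℝ) • A‖ ≤ C)
    (hw : ∑ c ∈ s, w c = (s.card : ℝ) • A) (hA : ‖A‖ ≤ K)
    (hU₁ : ∑ c ∈ s, ‖u c‖ ^ 2 ≤ U₁) (hU₂ : ∑ c ∈ s, ‖w c‖ ^ 2 ≤ U₂) :
    ∑ c ∈ s, ‖u c - w c‖ ^ 2 ≤
      2 * (U₁ - s.card * ‖A‖ ^ 2 + 2 * C * K) + 2 * (U₂ - s.card * ‖A‖ ^ 2) := by
  have v1 := variance_le s u A hu hA
  have v2 := variance_le s w A (C := 0) (by rw [hw, sub_self, norm_zero]) hA
  refine (Finset.sum_le_sum fun c _ => sq_diff_le (u c) (w c) A).trans ?_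
  rw [Finset.sum_add_distrib, ← Finset.mul_sum, ← Finset.mul_sum]
  linarith

lemma upper_sq {ι : Type*} (s : Finset ι) (gx gy : ι → E) (A : E) {S₁ S lam η D K : ℝ}
    (hK : 0 ≤ K) (hlam : 0 ≤ lam) (hS : 0 ≤ S)
    (h : ∀ c ∈ s, ‖gx c‖ ≤ S₁ ∧ ‖gy c‖ ≤ S + lam * (S₁ - ‖gx c‖) ∧ ‖gy c‖ ≤ K)
    (hA : S₁ - η ≤ ‖A‖)
    (hD : ‖∑ c ∈ s, gx c - (s.card : ℝ) • A‖ ≤ s.card * D) :
    ∑ c ∈ s, ‖gy c‖ ^ 2 ≤ s.card * (S ^ 2 + 2 * K * lam * (η + D)) := by
  refine (Finset.sum_le_sum (g := fun c => S ^ 2 + 2 * K * (lam * (S₁ - ‖gx c‖)))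
    fun c hc => sq_upper (h c hc).2.1 (norm_nonneg _) hS (h c hc).2.2
      (mul_nonneg hlam (by linarith [(h c hc).1]))).trans ?_
  simp only [Finset.sum_add_distrib, ← Finset.mul_sum, Finset.sum_sub_distrib,
    Finset.sum_const, nsmul_eq_mul]
  have h2 := norm_sub_norm_le ((s.card : ℝ) • A) (∑ c ∈ s, gx c)
  rw [norm_sub_rev ((s.card : ℝ) • A), norm_smul, Real.norm_eq_abs, Nat.abs_cast] at h2
  have h2' := norm_sum_le s gx
  have h3 := mul_le_mul_of_nonneg_left hA (Nat.cast_nonneg (α := ℝ) s.card)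
  have h4 : (s.card : ℝ) * S₁ - ∑ c ∈ s, ‖gx c‖ ≤ s.card * (η + D) := by linarith
  have h5 := mul_le_mul_of_nonneg_left h4 (by positivity : 0 ≤ 2 * K * lam)
  linarith

/-- selection of a block in which every label has a quiet line -/
lemma select_block {m W Q N n : ℕ} (hm : 0 < m) (hW : 0 < W) (hQ : 0 < Q) (hN : 0 < N)
    (hn : n = m * Q * W * N) (Tx Ty : ℕ → ℕ → ℝ) (hTx : ∀ a b, 0 ≤ Tx a b)
    (hTy : ∀ a b, 0 ≤ Ty a b) {u w σ : ℝ}
    (hσ : σ = ((m * W * Q : ℕ) : ℝ) * u + ((m * Q : ℕ) : ℝ) * w)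
    (hx : ∑ c ∈ Finset.range n ×ˢ Finset.range n, Tx c.1 c.2 ≤
      ((Finset.range n ×ˢ Finset.range n).card : ℝ) * u)
    (hy : ∑ c ∈ Finset.range n ×ˢ Finset.range n, Ty c.1 c.2 ≤
      ((Finset.range n ×ˢ Finset.range n).card : ℝ) * w) :
    ∃ p < N, ∃ q < W * N, ∃ cb ca : Fin m → ℕ, (∀ i, cb i < Q) ∧ (∀ i, ca i < Q * W) ∧
      (∀ i : Fin m, ∑ a ∈ Finset.range (m * W * Q),
        Tx (p * (m * W * Q) + a) (q * (m * Q) + (i * Q + cb i)) ≤ m * σ) ∧
      (∀ i : Fin m, ∑ b ∈ Finset.range (m * Q),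
        Ty (p * (m * W * Q) + (i * (Q * W) + ca i)) (q * (m * Q) + b) ≤ m * σ) := by
  have hPxR : (0 : ℝ) < (m * W * Q : ℕ) := Nat.cast_pos.2 (Nat.mul_pos (Nat.mul_pos hm hW) hQ)
  have hPyR : (0 : ℝ) < (m * Q : ℕ) := Nat.cast_pos.2 (Nat.mul_pos hm hQ)
  generalize hPx : m * W * Q = Px at *
  generalize hPy : m * Q = Py at *
  have hne : (Finset.range N ×ˢ Finset.range (W * N)).Nonempty :=
    ⟨(0, 0), by simp [hN, Nat.mul_pos hW hN]⟩
  obtain ⟨c, hc, hblock⟩ := Finset.exists_le_of_sum_le hne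
    (f := fun c => ∑ a ∈ Finset.range Px, ∑ b ∈ Finset.range Py,
      ((Px : ℝ) * Tx (c.1 * Px + a) (c.2 * Py + b) + (Py : ℝ) * Ty (c.1 * Px + a) (c.2 * Py + b)))
    (g := fun _ => (Px : ℝ) * Py * σ) (by
    have e1 : n = N * Px := by subst hPx hPy; rw [hn]; ring
    have e2 : n = W * N * Py := by subst hPx hPy; rw [hn]; ring
    have e3 : ∀ G : ℕ → ℕ → ℝ, ∑ c ∈ Finset.range n ×ˢ Finset.range n, G c.1 c.2 =
        ∑ c ∈ Finset.range N ×ˢ Finset.range (W * N),
          ∑ a ∈ Finset.range Px, ∑ b ∈ Finset.range Py, G (c.1 * Px + a) (c.2 * Py + b) := by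
      intro G
      rw [Finset.sum_product, Finset.sum_product]
      conv_lhs => arg 1; rw [e1]
      rw [sum_range_mul']
      refine Finset.sum_congr rfl fun p _ => ?_
      rw [Finset.sum_comm (s := Finset.range (W * N))]
      refine Finset.sum_congr rfl fun a _ => ?_
      rw [e2]
      exact sum_range_mul' _ _ _
    rw [← e3 (fun a b => (Px : ℝ) * Tx a b + (Py : ℝ) * Ty a b), Finset.sum_add_distrib,
      ← Finset.mul_sum, ← Finset.mul_sum]
    have hcard : ((Finset.range n ×ˢ Finset.range n).card : ℝ) =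
        ((Finset.range N ×ˢ Finset.range (W * N)).card : ℝ) * ((Px : ℝ) * Py) := by
      simp only [Finset.card_product, Finset.card_range]
      have : n * n = N * (W * N) * (Px * Py) := by
        nth_rewrite 1 [e1]; rw [e2]; ring
      exact_mod_cast this
    rw [Finset.sum_const, nsmul_eq_mul, ← mul_assoc, ← hcard]
    have h1 := mul_le_mul_of_nonneg_left hx hPxR.le
    have h2 := mul_le_mul_of_nonneg_left hy hPyR.le
    rw [hσ]
    linarith)
  simp only [Finset.mem_product, Finset.mem_range] at hc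
  obtain ⟨p, q⟩ := c
  simp only at hblock
  have row : ∀ i : Fin m, ∃ c < Q,
      ∑ a ∈ Finset.range Px, Tx (p * Px + a) (q * Py + (i * Q + c)) ≤ m * σ := by
    intro i
    obtain ⟨c, hc, hle⟩ := Finset.exists_le_of_sum_le (Finset.nonempty_range_iff.2 hQ.ne')
      (f := fun c => ∑ a ∈ Finset.range Px, Tx (p * Px + a) (q * Py + (i * Q + c)))
      (g := fun _ => (m : ℝ) * σ) (by
      simp only [Finset.sum_const, Finset.card_range, nsmul_eq_mul]
      have h0 : ∑ b ∈ Finset.range Py, ∑ a ∈ Finset.range Px, Tx (p * Px + a) (q * Py + b) ≤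
          (Py : ℝ) * σ := by
        refine le_of_mul_le_mul_left ?_ hPxR
        rw [Finset.sum_comm, Finset.mul_sum, ← mul_assoc]
        simp only [Finset.mul_sum]
        refine le_trans (Finset.sum_le_sum fun a _ => Finset.sum_le_sum fun b _ => ?_) hblock
        exact le_add_of_nonneg_right (mul_nonneg hPyR.le (hTy _ _))
      conv at h0 => lhs; arg 1; rw [← hPy]
      rw [sum_range_mul'] at h0
      refine le_trans (le_trans ?_ h0) (le_of_eq (by rw [← hPy]; push_cast; ring))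
      exact Finset.single_le_sum (f := fun i' => ∑ c ∈ Finset.range Q, ∑ a ∈ Finset.range Px,
        Tx (p * Px + a) (q * Py + (i' * Q + c)))
        (fun i' _ => Finset.sum_nonneg fun _ _ => Finset.sum_nonneg fun _ _ => hTx _ _)
        (Finset.mem_range.2 i.isLt))
    exact ⟨c, Finset.mem_range.1 hc, hle⟩
  have col : ∀ i : Fin m, ∃ c < Q * W,
      ∑ b ∈ Finset.range Py, Ty (p * Px + (i * (Q * W) + c)) (q * Py + b) ≤ m * σ := by
    intro i
    have hQW : 0 < Q * W := Nat.mul_pos hQ hW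
    have ePx : Px = m * (Q * W) := by rw [← hPx]; ring
    obtain ⟨c, hc, hle⟩ := Finset.exists_le_of_sum_le (Finset.nonempty_range_iff.2 hQW.ne')
      (f := fun c => ∑ b ∈ Finset.range Py, Ty (p * Px + (i * (Q * W) + c)) (q * Py + b))
      (g := fun _ => (m : ℝ) * σ) (by
      simp only [Finset.sum_const, Finset.card_range, nsmul_eq_mul]
      have h0 : ∑ a ∈ Finset.range Px, ∑ b ∈ Finset.range Py, Ty (p * Px + a) (q * Py + b) ≤
          (Px : ℝ) * σ := by
        refine le_of_mul_le_mul_left ?_ hPyR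
        rw [Finset.mul_sum, ← mul_assoc, mul_comm (Py : ℝ) (Px : ℝ)]
        simp only [Finset.mul_sum]
        refine le_trans (Finset.sum_le_sum fun a _ => Finset.sum_le_sum fun b _ => ?_) hblock
        exact le_add_of_nonneg_left (mul_nonneg hPxR.le (hTx _ _))
      conv at h0 => lhs; arg 1; rw [ePx]
      rw [sum_range_mul'] at h0
      refine le_trans (le_trans ?_ h0) (le_of_eq (by rw [ePx]; push_cast; ring))
      exact Finset.single_le_sum (f := fun i' => ∑ c ∈ Finset.range (Q * W),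
        ∑ b ∈ Finset.range Py, Ty (p * Px + (i' * (Q * W) + c)) (q * Py + b))
        (fun i' _ => Finset.sum_nonneg fun _ _ => Finset.sum_nonneg fun _ _ => hTy _ _)
        (Finset.mem_range.2 i.isLt))
    exact ⟨c, Finset.mem_range.1 hc, hle⟩
  choose cb hcb hrow using row
  choose ca hca hcol using col
  exact ⟨p, hc.1, q, hc.2, cb, ca, hcb, hca, hrow, hcol⟩

/-- a quantity that is close to band averages is constant along a quiet line -/
lemma near_const (f d : ℕ → E) (T : ℕ → ℝ) {N : ℕ} {r K e : ℝ} (hr : 0 < r)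
    (hstep : ∀ a, a < N → ‖f (a + 1) - f a‖ ≤ r ^ 2 * T a) (hT : ∀ a, 0 ≤ T a)
    (hsum : ∑ a ∈ Finset.range N, T a ≤ e)
    (hnear : ∀ a, ‖f a - r • d a‖ ≤ 2 * K * r * r) {α β : ℕ} (hα : α ≤ N) (hβ : β ≤ N) :
    ‖d α - d β‖ ≤ r * (2 * e + 4 * K) := by
  have hch := chain_le f (fun a => r ^ 2 * T a) N hstep
    (fun a _ => mul_nonneg (sq_nonneg _) (hT a)) hα hβ
  rw [← Finset.mul_sum] at hch
  have hb := mul_le_mul_of_nonneg_left hsum (sq_nonneg r)
  refine le_of_mul_le_mul_left ?_ hr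
  calc r * ‖d α - d β‖ = ‖(f α - f β) - ((f α - r • d α) - (f β - r • d β))‖ := by
        rw [← abs_of_pos hr, ← Real.norm_eq_abs, ← norm_smul, Real.norm_eq_abs, abs_of_pos hr]
        congr 1; rw [smul_sub]; abel
    _ ≤ 2 * (r ^ 2 * ∑ a ∈ Finset.range N, T a) + (2 * K * r * r + 2 * K * r * r) :=
        (norm_sub_le _ _).trans
          (add_le_add hch ((norm_sub_le _ _).trans (add_le_add (hnear α) (hnear β))))
    _ ≤ _ := by linarith

/-- coordinate of the `a`-th grid line in the node -/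
def line (s I a : ℕ) : ℝ := (I : ℝ) * side s + a * side (s + 1)

lemma line_step (s I a : ℕ) : line s I a + side (s + 1) = line s I (a + 1) := by
  simp [line]; ring

lemma line_eq (s I a : ℕ) : line s I a = ((I * pn s + a : ℕ) : ℝ) * side (s + 1) := by
  simp only [line, side_eq s]; push_cast; ring

/-- mean derivatives on a cell of the layer with choice `o` -/
def cellX (F : Hil → E) (l : List (Option ℕ)) (I J : ℕ) (o : Option ℕ) (a b : ℕ) : E :=
  cX F (tau l I J + off l I J o) (line l.length I a) (line l.length J b) (side (l.length + 1))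

def cellY (F : Hil → E) (l : List (Option ℕ)) (I J : ℕ) (o : Option ℕ) (a b : ℕ) : E :=
  cY F (tau l I J + off l I J o) (line l.length I a) (line l.length J b) (side (l.length + 1))

lemma cell_eq_child (F : Hil → E) (l : List (Option ℕ)) (I J : ℕ) (o : Option ℕ) {a b : ℕ}
    (ha : a < pn l.length) (hb : b < pn l.length) :
    cellX F l I J o a b = nX F (o :: l) (I * pn l.length + a) (J * pn l.length + b) ∧
    cellY F l I J o a b = nY F (o :: l) (I * pn l.length + a) (J * pn l.length + b) := by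
  simp only [cellX, cellY, nX, nY, List.length_cons, line_eq, tau_child l I J o ha hb, and_self]

def rowOpt (s b : ℕ) : Option ℕ := some (b / pQ s % pm s)

def colOpt (s a : ℕ) : Option ℕ := some (a / (pQ s * pW s) % pm s)

lemma ok_row (s I J a b : ℕ) : OkChoice s (rowOpt s b) (I * pn s + a) (J * pn s + b) :=
  Or.inr (Or.inl (by rw [row_label]; rfl))

lemma ok_col (s I J a b : ℕ) : OkChoice s (colOpt s a) (I * pn s + a) (J * pn s + b) :=
  Or.inr (Or.inr (by rw [col_label]; rfl))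

variable {F : Hil → E} {K : ℝ} (hK : ∀ u v, ‖F u - F v‖ ≤ K * ‖u - v‖)

include hK

lemma band_bound (l : List (Option ℕ)) (I J : ℕ) (o : Option ℕ) (x y : ℝ) :
    ‖bandX F (tau l I J) (off l I J o) x y (side (l.length + 1))‖ ≤
        K * rho l.length * side (l.length + 1) ∧
      ‖bandY F (tau l I J) (off l I J o) x y (side (l.length + 1))‖ ≤
        K * rho l.length * side (l.length + 1) :=
  ⟨(norm_bandX hK _ _ x y (side_pos _)).trans (mul_le_mul_of_nonneg_right
      (mul_le_mul_of_nonneg_left (norm_off_le l I J o) (K_nonneg hK)) (side_pos _).le),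
    (norm_bandY hK _ _ x y (side_pos _)).trans (mul_le_mul_of_nonneg_right
      (mul_le_mul_of_nonneg_left (norm_off_le l I J o) (K_nonneg hK)) (side_pos _).le)⟩

lemma cellX_sub (l : List (Option ℕ)) (I J : ℕ) (o : Option ℕ) (a b : ℕ) :
    cellX F l I J o a b - cellX F l I J none a b = (side (l.length + 1) ^ 2)⁻¹ •
      (bandX F (tau l I J) (off l I J o) (line l.length I (a + 1)) (line l.length J b)
          (side (l.length + 1)) -
        bandX F (tau l I J) (off l I J o) (line l.length I a) (line l.length J b)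
          (side (l.length + 1))) := by
  simp only [cellX]
  rw [show off l I J none = 0 from rfl, add_zero, cX_shift hK, line_step]

lemma cellY_sub (l : List (Option ℕ)) (I J : ℕ) (o : Option ℕ) (a b : ℕ) :
    cellY F l I J o a b - cellY F l I J none a b = (side (l.length + 1) ^ 2)⁻¹ •
      (bandY F (tau l I J) (off l I J o) (line l.length I a) (line l.length J (b + 1))
          (side (l.length + 1)) -
        bandY F (tau l I J) (off l I J o) (line l.length I a) (line l.length J b)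
          (side (l.length + 1))) := by
  simp only [cellY]
  rw [show off l I J none = 0 from rfl, add_zero, cY_shift hK, line_step]

lemma sum_base (l : List (Option ℕ)) (I J : ℕ) :
    (∑ c ∈ Finset.range (pn l.length) ×ˢ Finset.range (pn l.length),
        cellX F l I J none c.1 c.2 =
      ((Finset.range (pn l.length) ×ˢ Finset.range (pn l.length)).card : ℝ) • nX F l I J) ∧
    (∑ c ∈ Finset.range (pn l.length) ×ˢ Finset.range (pn l.length),
        cellY F l I J none c.1 c.2 =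
      ((Finset.range (pn l.length) ×ˢ Finset.range (pn l.length)).card : ℝ) • nY F l I J) := by
  have hc : ((Finset.range (pn l.length) ×ˢ Finset.range (pn l.length)).card : ℝ) =
      (pn l.length : ℝ) ^ 2 := by simp [sq]
  rw [hc, Finset.sum_product, Finset.sum_product]
  simp only [cellX, cellY, nX, nY, line]
  rw [show off l I J none = 0 from rfl, add_zero]
  rw [cX_sum hK _ _ _ _ (side_pos _) _ (pn_pos _), cY_sum hK _ _ _ _ (side_pos _) _ (pn_pos _),
    ← side_eq]
  exact ⟨rfl, rfl⟩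

lemma sum_row (l : List (Option ℕ)) (I J : ℕ) :
    ‖∑ c ∈ Finset.range (pn l.length) ×ˢ Finset.range (pn l.length),
        cellX F l I J (rowOpt l.length c.2) c.1 c.2 -
      ((Finset.range (pn l.length) ×ˢ Finset.range (pn l.length)).card : ℝ) • nX F l I J‖ ≤
      pn l.length * (2 * K * pQ l.length) := by
  rw [← (sum_base hK l I J).1, ← Finset.sum_sub_distrib, Finset.sum_product, Finset.sum_comm]
  refine (norm_sum_le _ _).trans ((Finset.sum_le_sum
    (g := fun _ => 2 * K * (pQ l.length : ℝ)) fun b _ => ?_).trans (le_of_eq (by simp)))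
  simp only [cellX_sub hK]
  rw [← Finset.smul_sum, Finset.sum_range_sub (fun a => bandX F (tau l I J)
    (off l I J (rowOpt l.length b)) (line l.length I a) (line l.length J b) (side (l.length + 1)))]
  exact inv_sq_band (side_pos _) rfl (band_bound hK l I J _ _ _).1 (band_bound hK l I J _ _ _).1

lemma sum_col (l : List (Option ℕ)) (I J : ℕ) :
    ‖∑ c ∈ Finset.range (pn l.length) ×ˢ Finset.range (pn l.length),
        cellY F l I J (colOpt l.length c.1) c.1 c.2 -
      ((Finset.range (pn l.length) ×ˢ Finset.range (pn l.length)).card : ℝ) • nY F l I J‖ ≤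
      pn l.length * (2 * K * pQ l.length) := by
  rw [← (sum_base hK l I J).2, ← Finset.sum_sub_distrib, Finset.sum_product]
  refine (norm_sum_le _ _).trans ((Finset.sum_le_sum
    (g := fun _ => 2 * K * (pQ l.length : ℝ)) fun a _ => ?_).trans (le_of_eq (by simp)))
  simp only [cellY_sub hK]
  rw [← Finset.smul_sum, Finset.sum_range_sub (fun b => bandY F (tau l I J)
    (off l I J (colOpt l.length a)) (line l.length I a) (line l.length J b) (side (l.length + 1)))]
  exact inv_sq_band (side_pos _) rfl (band_bound hK l I J _ _ _).2 (band_bound hK l I J _ _ _).2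

lemma sum_colX (l : List (Option ℕ)) (I J : ℕ) :
    ‖∑ c ∈ Finset.range (pn l.length) ×ˢ Finset.range (pn l.length),
        cellX F l I J (colOpt l.length c.1) c.1 c.2 -
      ((Finset.range (pn l.length) ×ˢ Finset.range (pn l.length)).card : ℝ) • nX F l I J‖ ≤
      ((Finset.range (pn l.length) ×ˢ Finset.range (pn l.length)).card : ℝ) *
        (2 * K / pW l.length) := by
  rw [← (sum_base hK l I J).1, ← Finset.sum_sub_distrib, Finset.sum_product, Finset.sum_comm]
  set s := l.length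
  have hQW : 0 < pQ s * pW s := Nat.mul_pos (pQ_pos s) (pW_pos s)
  have hWR : (0 : ℝ) < pW s := Nat.cast_pos.2 (pW_pos s)
  have hn' : pn s = (pm s * pN s) * (pQ s * pW s) := by simp only [pn]; ring
  refine (norm_sum_le _ _).trans ((Finset.sum_le_sum
    (g := fun _ => (pn s : ℝ) * (2 * K / pW s)) fun b _ => ?_).trans
      (le_of_eq (by simp; ring)))
  rw [hn', sum_range_mul']
  refine (norm_sum_le _ _).trans ((Finset.sum_le_sum
    (g := fun _ => 2 * K * (pQ s : ℝ)) fun p _ => ?_).trans (le_of_eq ?_))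
  · have lab : ∀ c ∈ Finset.range (pQ s * pW s),
        colOpt s (p * (pQ s * pW s) + c) = some (p % pm s) := fun c hc => by
      rw [colOpt, band_index (Finset.mem_range.1 hc)]
    rw [Finset.sum_congr rfl fun c hc => by rw [lab c hc]]
    simp only [cellX_sub hK]
    simp only [add_assoc]
    rw [← Finset.smul_sum, Finset.sum_range_sub (fun c => bandX F (tau l I J)
      (off l I J (some (p % pm s))) (line s I (p * (pQ s * pW s) + c)) (line s J b)
      (side (s + 1)))]
    exact inv_sq_band (side_pos _) rfl (band_bound hK l I J _ _ _).1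
      (band_bound hK l I J _ _ _).1
  · simp; field_simp

/-- bounds on the square deviations of the two pattern layers from the base layer -/
lemma deviation {l : List (Option ℕ)} {I J : ℕ} (hv : Valid l I J) {S₁ S lam η β : ℝ}
    (hS₁ : 0 ≤ S₁) (hS₁K : S₁ ≤ K) (hS : 0 ≤ S) (hSK : S ≤ K) (hlam : 0 ≤ lam)
    (hη : 0 ≤ η) (hβ : 0 ≤ β)
    (hX : ∀ l I J, Valid l I J → ‖nX F l I J‖ ≤ S₁)
    (hY : ∀ l I J, Valid l I J → ‖nY F l I J‖ ≤ S + lam * (S₁ - ‖nX F l I J‖))
    (hA : S₁ - η ≤ ‖nX F l I J‖) (hB : S - β ≤ ‖nY F l I J‖) :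
    (∑ c ∈ Finset.range (pn l.length) ×ˢ Finset.range (pn l.length),
        ‖cellX F l I J (rowOpt l.length c.2) c.1 c.2 - cellX F l I J none c.1 c.2‖ ^ 2 ≤
      ((Finset.range (pn l.length) ×ˢ Finset.range (pn l.length)).card : ℝ) *
        (8 * K * η + 8 * K ^ 2 * (pQ l.length / pn l.length))) ∧
    (∑ c ∈ Finset.range (pn l.length) ×ˢ Finset.range (pn l.length),
        ‖cellY F l I J (colOpt l.length c.1) c.1 c.2 - cellY F l I J none c.1 c.2‖ ^ 2 ≤
      ((Finset.range (pn l.length) ×ˢ Finset.range (pn l.length)).card : ℝ) *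
        (8 * K * β + 8 * K * lam * η + 8 * K ^ 2 * (lam / pW l.length) +
          8 * K ^ 2 * (pQ l.length / pn l.length))) := by
  set P := Finset.range (pn l.length) ×ˢ Finset.range (pn l.length)
  have child : ∀ (o : ℕ × ℕ → Option ℕ),
      (∀ c : ℕ × ℕ, OkChoice l.length (o c) (I * pn l.length + c.1) (J * pn l.length + c.2)) →
      ∀ c ∈ P, ‖cellX F l I J (o c) c.1 c.2‖ ≤ S₁ ∧
        ‖cellY F l I J (o c) c.1 c.2‖ ≤ S + lam * (S₁ - ‖cellX F l I J (o c) c.1 c.2‖) ∧
        ‖cellY F l I J (o c) c.1 c.2‖ ≤ K := by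
    intro o ho c hc
    simp only [P, Finset.mem_product, Finset.mem_range] at hc
    have hval : Valid (o c :: l) (I * pn l.length + c.1) (J * pn l.length + c.2) :=
      ⟨by rw [child_div I hc.1, child_div J hc.2]; exact hv, ho c⟩
    obtain ⟨e1, e2⟩ := cell_eq_child F l I J (o c) hc.1 hc.2
    rw [e1, e2]
    exact ⟨hX _ _ _ hval, hY _ _ _ hval, norm_cY_le hK _ _ _ (side_pos _)⟩
  have cb := child (fun _ => none) fun _ => Or.inl rfl
  have cr := child (fun c => rowOpt l.length c.2) fun c => ok_row _ _ _ _ _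
  have cc := child (fun c => colOpt l.length c.1) fun c => ok_col _ _ _ _ _
  have hn : (0 : ℝ) < pn l.length := Nat.cast_pos.2 (pn_pos _)
  have hcard : (P.card : ℝ) = (pn l.length : ℝ) ^ 2 := by simp [P, sq]
  have hP : 0 ≤ (P.card : ℝ) := Nat.cast_nonneg _
  have hAle : ‖nX F l I J‖ ≤ K := (hX _ _ _ hv).trans hS₁K
  have hBle : ‖nY F l I J‖ ≤ K := norm_cY_le hK _ _ _ (side_pos _)
  have defA := mul_le_mul_of_nonneg_left (sq_deficit hA (norm_nonneg _) hS₁ hS₁K hη) hP
  have defB := mul_le_mul_of_nonneg_left (sq_deficit hB (norm_nonneg _) hS hSK hβ) hP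
  have h3 : (P.card : ℝ) * ((pQ l.length : ℝ) / pn l.length) = pn l.length * pQ l.length := by
    rw [hcard]; field_simp
  have upX : ∀ g : ℕ × ℕ → E, (∀ c ∈ P, ‖g c‖ ≤ S₁) →
      ∑ c ∈ P, ‖g c‖ ^ 2 ≤ (P.card : ℝ) * S₁ ^ 2 := by
    intro g hg
    refine (Finset.sum_le_sum (g := fun _ => S₁ ^ 2) fun c hc =>
      pow_le_pow_left₀ (norm_nonneg _) (hg c hc) 2).trans (le_of_eq ?_)
    rw [Finset.sum_const, nsmul_eq_mul]
  constructor
  · refine (two_dev P (fun c => cellX F l I J (rowOpt l.length c.2) c.1 c.2)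
      (fun c => cellX F l I J none c.1 c.2) (nX F l I J) (sum_row hK l I J) (sum_base hK l I J).1 hAle
      (upX _ fun c hc => (cr c hc).1) (upX _ fun c hc => (cb c hc).1)).trans ?_
    exact arith_x defA h3
  · have u1 := upper_sq P (fun c => cellX F l I J (colOpt l.length c.1) c.1 c.2)
      (fun c => cellY F l I J (colOpt l.length c.1) c.1 c.2) (nX F l I J) (K_nonneg hK) hlam hS cc hA (sum_colX hK l I J)
    have u2 := upper_sq P (fun c => cellX F l I J none c.1 c.2)
      (fun c => cellY F l I J none c.1 c.2) (nX F l I J) (D := 0) (K_nonneg hK) hlam hS cb hA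
      (by rw [mul_zero, (sum_base hK l I J).1, sub_self, norm_zero])
    refine (two_dev P (fun c => cellY F l I J (colOpt l.length c.1) c.1 c.2)
      (fun c => cellY F l I J none c.1 c.2) (nY F l I J) (sum_col hK l I J) (sum_base hK l I J).2 hBle u1 u2).trans ?_
    exact arith_y defB h3

/-- many separated vectors in a ball -/
lemma separated_vectors {l : List (Option ℕ)} {I J : ℕ} (hv : Valid l I J)
    {S₁ S lam η β a : ℝ}
    (hS₁ : 0 ≤ S₁) (hS₁K : S₁ ≤ K) (hS : 0 ≤ S) (hSK : S ≤ K) (hlam : 0 ≤ lam)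
    (hη : 0 ≤ η) (hβ : 0 ≤ β) (ha : 0 ≤ a)
    (hX : ∀ l I J, Valid l I J → ‖nX F l I J‖ ≤ S₁)
    (hY : ∀ l I J, Valid l I J → ‖nY F l I J‖ ≤ S + lam * (S₁ - ‖nX F l I J‖))
    (hA : S₁ - η ≤ ‖nX F l I J‖) (hB : S - β ≤ ‖nY F l I J‖)
    (hlow : ∀ u ∈ setX, ∀ v ∈ setX, a * ‖u - v‖ ≤ ‖F u - F v‖)
    {s : ℕ} (hs : l.length = s) {σ : ℝ}
    (hσ : σ = ((pm s * pW s * pQ s : ℕ) : ℝ) *
        Real.sqrt (8 * K * η + 8 * K ^ 2 * (pQ s / pn s)) +
      ((pm s * pQ s : ℕ) : ℝ) * Real.sqrt (8 * K * β + 8 * K * lam * η +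
        8 * K ^ 2 * (lam / pW s) + 8 * K ^ 2 * (pQ s / pn s))) :
    ∃ u : Fin (pm s) → E, (∀ i, ‖u i‖ ≤ K) ∧ ∀ i j, i ≠ j →
      a - 2 * (2 * (pm s * σ) + 4 * K) / pQ s ≤ ‖u i - u j‖ := by
  subst hs
  obtain ⟨dX, dY⟩ := deviation hK hv hS₁ hS₁K hS hSK hlam hη hβ hX hY hA hB
  set s := l.length with hsdef
  have hN : 0 < pN s := Nat.lt_of_lt_of_le (by norm_num) (pN_ge s)
  obtain ⟨p, hp, q, hq, cb, ca, hcb, hca, hrow, hcol⟩ :=
    select_block (pm_pos s) (pW_pos s) (pQ_pos s) hN (rfl : pn s = _)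
      (fun a b => ‖cellX F l I J (rowOpt s b) a b - cellX F l I J none a b‖)
      (fun a b => ‖cellY F l I J (colOpt s a) a b - cellY F l I J none a b‖)
      (fun _ _ => norm_nonneg _) (fun _ _ => norm_nonneg _) hσ
      (sum_le_sqrt _ _ dX) (sum_le_sqrt _ _ dY)
  have hr : 0 < side (s + 1) := side_pos _
  let A : Fin (pm s) → ℕ := fun i => i * (pQ s * pW s) + ca i
  let B : Fin (pm s) → ℕ := fun i => i * pQ s + cb i
  let a₀ := p * (pm s * pW s * pQ s)
  let b₀ := q * (pm s * pQ s)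
  have hBlt : ∀ i, B i < pm s * pQ s := fun i => by
    have := Nat.mul_le_mul_right (pQ s) (i.isLt : (i : ℕ) + 1 ≤ pm s)
    rw [Nat.succ_mul] at this
    have := hcb i
    simp only [B]; omega
  have hAlt : ∀ i, A i < pm s * pW s * pQ s := fun i => by
    have := Nat.mul_le_mul_right (pQ s * pW s) (i.isLt : (i : ℕ) + 1 ≤ pm s)
    rw [Nat.succ_mul] at this
    have := hca i
    have e : pm s * pW s * pQ s = pm s * (pQ s * pW s) := by ring
    simp only [A]; omega
  have labB : ∀ i, rowOpt s (b₀ + B i) = some (i : ℕ) := fun i => by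
    have e : b₀ + B i = (q * pm s + i) * pQ s + cb i := by simp only [b₀, B]; ring
    rw [rowOpt, e, band_index (hcb i), label_index i.isLt]
  have labA : ∀ i, colOpt s (a₀ + A i) = some (i : ℕ) := fun i => by
    have e : a₀ + A i = (p * pm s + i) * (pQ s * pW s) + ca i := by simp only [a₀, A]; ring
    rw [colOpt, e, band_index (hca i), label_index i.isLt]
  let d : Fin (pm s) → Fin (pm s) → Fin (pm s) → E := fun i α β' =>
    dif F (tau l I J) (off l I J (some (i : ℕ))) (line s I (a₀ + A α)) (line s J (b₀ + B β'))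
  have rowconst : ∀ i α α', ‖d i α i - d i α' i‖ ≤
      side (s + 1) * (2 * (pm s * σ) + 4 * K) := by
    intro i α α'
    exact near_const
      (fun a => bandX F (tau l I J) (off l I J (some (i : ℕ))) (line s I (a₀ + a))
        (line s J (b₀ + B i)) (side (s + 1)))
      (fun a => dif F (tau l I J) (off l I J (some (i : ℕ))) (line s I (a₀ + a))
        (line s J (b₀ + B i)))
      (fun a => ‖cellX F l I J (rowOpt s (b₀ + B i)) (a₀ + a) (b₀ + B i) -
        cellX F l I J none (a₀ + a) (b₀ + B i)‖)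
      hr (fun a _ => by
        rw [labB i, cellX_sub hK, norm_smul, norm_inv, Real.norm_eq_abs,
          abs_of_pos (pow_pos hr 2), ← mul_assoc, mul_inv_cancel₀ (pow_pos hr 2).ne', one_mul,
          add_assoc])
      (fun _ => norm_nonneg _) (hrow i) (fun a => bandX_near hK _ _ _ _ hr)
      (hAlt α).le (hAlt α').le
  have colconst : ∀ i α α', ‖d i i α - d i i α'‖ ≤
      side (s + 1) * (2 * (pm s * σ) + 4 * K) := by
    intro i α α'
    exact near_const
      (fun b => bandY F (tau l I J) (off l I J (some (i : ℕ))) (line s I (a₀ + A i))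
        (line s J (b₀ + b)) (side (s + 1)))
      (fun b => dif F (tau l I J) (off l I J (some (i : ℕ))) (line s I (a₀ + A i))
        (line s J (b₀ + b)))
      (fun b => ‖cellY F l I J (colOpt s (a₀ + A i)) (a₀ + A i) (b₀ + b) -
        cellY F l I J none (a₀ + A i) (b₀ + b)‖)
      hr (fun b _ => by
        rw [labA i, cellY_sub hK, norm_smul, norm_inv, Real.norm_eq_abs,
          abs_of_pos (pow_pos hr 2), ← mul_assoc, mul_inv_cancel₀ (pow_pos hr 2).ne', one_mul,
          add_assoc])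
      (fun _ => norm_nonneg _) (hcol i) (fun b => bandY_near hK _ _ _ _ hr)
      (hBlt α).le (hBlt α').le
  have hρ := rho_pos s
  refine ⟨fun i => (rho s)⁻¹ • d i i i, fun i => ?_, fun i j hij => ?_⟩
  · rw [norm_smul, norm_inv, Real.norm_eq_abs, abs_of_pos hρ, inv_mul_le_iff₀ hρ,
      mul_comm (rho s) K]
    exact (gl_shift hK _ _ _ _).trans
      (mul_le_mul_of_nonneg_left (norm_off_le l I J _) (K_nonneg hK))
  -- the crossing point
  have ha' : a₀ + A j < pn s := by
    have h := Nat.mul_le_mul_right (pm s * pW s * pQ s) (hp : p + 1 ≤ pN s)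
    rw [Nat.succ_mul] at h
    have e : pn s = pN s * (pm s * pW s * pQ s) := by simp only [pn]; ring
    have := hAlt j
    simp only [a₀]; omega
  have hb' : b₀ + B i < pn s := by
    have h := Nat.mul_le_mul_right (pm s * pQ s) (hq : q + 1 ≤ pW s * pN s)
    rw [Nat.succ_mul] at h
    have e : pn s = pW s * pN s * (pm s * pQ s) := by simp only [pn]; ring
    have := hBlt i
    simp only [b₀]; omega
  have mem : ∀ o, OkChoice s o (I * pn s + (a₀ + A j)) (J * pn s + (b₀ + B i)) →
      emb (line s I (a₀ + A j)) (line s J (b₀ + B i)) + (tau l I J + off l I J o) ∈ setX := by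
    intro o ho
    have iv : ∀ I a, InIv (s + 1) (I * pn s + a) (line s I a) := fun I a => by
      rw [line_eq]
      exact ⟨le_rfl, mul_le_mul_of_nonneg_right (le_add_of_nonneg_right zero_le_one) hr.le⟩
    exact ⟨o :: l, I * pn s + (a₀ + A j), J * pn s + (b₀ + B i), _, _,
      ⟨by rw [child_div I ha', child_div J hb']; exact hv, ho⟩, iv _ _, iv _ _,
      by rw [tau_child l I J o ha' hb']⟩
  have m1 := mem (some (i : ℕ)) (labB i ▸ ok_row _ _ _ _ _)
  have m2 := mem (some (j : ℕ)) (labA j ▸ ok_col _ _ _ _ _)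
  have hd := hlow _ m1 _ m2
  rw [add_sub_add_left_eq_sub, add_sub_add_left_eq_sub] at hd
  have hgap : rho s ≤ ‖off l I J (some (i : ℕ)) - off l I J (some (j : ℕ))‖ := by
    have h := coord_le (off l I J (some (i : ℕ)) - off l I J (some (j : ℕ))) (key l I J i)
    have hne : key l I J i ≠ key l I J j := fun h => hij (Fin.ext (key_inj h).2.2.2)
    simp [off_apply, hne, ← hsdef, abs_of_pos hρ] at h
    exact h
  have e1 : F (emb (line s I (a₀ + A j)) (line s J (b₀ + B i)) +
        (tau l I J + off l I J (some (i : ℕ)))) -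
      F (emb (line s I (a₀ + A j)) (line s J (b₀ + B i)) +
        (tau l I J + off l I J (some (j : ℕ)))) = d i j i - d j j i := by
    simp only [d, dif, gl]; abel
  rw [e1] at hd
  have h2 : ‖d i j i - d j j i‖ ≤
      ‖d i i i - d j j j‖ + 2 * (side (s + 1) * (2 * (pm s * σ) + 4 * K)) := by
    calc ‖d i j i - d j j i‖ =
          ‖(d i i i - d j j j) + ((d i j i - d i i i) - (d j j i - d j j j))‖ := by
          congr 1; abel
      _ ≤ _ := (norm_add_le _ _).trans (add_le_add le_rfl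
          ((norm_sub_le _ _).trans (by linarith [rowconst i j i, colconst j i j])))
  have h3 := ((mul_le_mul_of_nonneg_left hgap ha).trans hd).trans h2
  rw [← smul_sub, norm_smul, norm_inv, Real.norm_eq_abs, abs_of_pos hρ, le_inv_mul_iff₀ hρ]
  have hQR : (0 : ℝ) < pQ s := Nat.cast_pos.2 (pQ_pos s)
  have e2 : rho s * (a - 2 * (2 * (pm s * σ) + 4 * K) / pQ s) =
      a * rho s - 2 * (side (s + 1) * (2 * (pm s * σ) + 4 * K)) := by
    simp only [rho]
    field_simp
  rw [e2]
  linarith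

end Vale.Agent.P208
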